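import Mathlib

/-!
# The top-degree coefficient of the wedge product of two 2-forms on `ℝ⁴`
-/

namespace Vale.Agent.H66

/-- The coefficient of `dx⁰ ∧ dx¹ ∧ dx² ∧ dx³` in the wedge product `a ∧ b` of two alternating
2-forms on `ℝ⁴`, i.e. the value `(a ∧ b)(e₀, e₁, e₂, e₃)` on the standard basis. -/
noncomputable def wedge4 (a b : (Fin 4 → ℝ) [⋀^Fin 2]→L[ℝ] ℝ) : ℝ :=
  a ![Pi.single 0 1, Pi.single 1 1] * b ![Pi.single 2 1, Pi.single 3 1]
  - a ![Pi.single 0 1, Pi.single 2 1] * b ![Pi.single 1 1, Pi.single 3 1]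
  + a ![Pi.single 0 1, Pi.single 3 1] * b ![Pi.single 1 1, Pi.single 2 1]
  + a ![Pi.single 1 1, Pi.single 2 1] * b ![Pi.single 0 1, Pi.single 3 1]
  - a ![Pi.single 1 1, Pi.single 3 1] * b ![Pi.single 0 1, Pi.single 2 1]
  + a ![Pi.single 2 1, Pi.single 3 1] * b ![Pi.single 0 1, Pi.single 1 1]

end Vale.Agent.H66
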