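import Mathlib
import Vale.Agent.H66.Wedge4

/-!
# Hypersymplectic triples on the four-torus `ℝ⁴/ℤ⁴`

Differential forms on the torus are written as `ℤ⁴`-periodic forms on `ℝ⁴`.
-/

namespace Vale.Agent.H66

open scoped ContDiff

/-- A function on `ℝ⁴` is `ℤ⁴`-periodic, i.e. it descends to the torus `ℝ⁴/ℤ⁴`. -/
def Periodic4 {F : Type} (f : (Fin 4 → ℝ) → F) : Prop :=
  ∀ (j : Fin 4) (x : Fin 4 → ℝ), f (x + Pi.single j 1) = f x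

/-- A smooth closed two-form on the torus: a smooth `ℤ⁴`-periodic two-form on `ℝ⁴` with
vanishing exterior derivative. -/
def IsClosedTorusForm (w : (Fin 4 → ℝ) → (Fin 4 → ℝ) [⋀^Fin 2]→L[ℝ] ℝ) : Prop :=
  ContDiff ℝ ∞ w ∧ Periodic4 w ∧ extDeriv w = 0

/-- Two two-forms on the torus differ by the exterior derivative of a smooth one-form on the
torus (so they define the same de Rham class). -/
def Cohomologous (a b : (Fin 4 → ℝ) → (Fin 4 → ℝ) [⋀^Fin 2]→L[ℝ] ℝ) : Prop :=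
  ∃ α : (Fin 4 → ℝ) → (Fin 4 → ℝ) [⋀^Fin 1]→L[ℝ] ℝ,
    ContDiff ℝ ∞ α ∧ Periodic4 α ∧ ∀ x, a x - b x = extDeriv α x

/-- A hypersymplectic triple on the torus: three closed two-forms whose matrix of wedge
products (coefficients with respect to `dx⁰ ∧ dx¹ ∧ dx² ∧ dx³`) is positive definite at
every point. -/
def IsHypersymplectic (w : Fin 3 → (Fin 4 → ℝ) → (Fin 4 → ℝ) [⋀^Fin 2]→L[ℝ] ℝ) : Prop :=
  (∀ i, IsClosedTorusForm (w i)) ∧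
    ∀ x, (Matrix.of fun i j => wedge4 (w i x) (w j x)).PosDef

/-- A hyperkaehler triple on the torus: three closed two-forms with
`w i ∧ w j = δ_ij • mu • dx⁰ ∧ dx¹ ∧ dx² ∧ dx³` for a positive function `mu`. -/
def IsHyperkahler (w : Fin 3 → (Fin 4 → ℝ) → (Fin 4 → ℝ) [⋀^Fin 2]→L[ℝ] ℝ) : Prop :=
  (∀ i, IsClosedTorusForm (w i)) ∧
    ∃ mu : (Fin 4 → ℝ) → ℝ, (∀ x, 0 < mu x) ∧
      ∀ x i j, wedge4 (w i x) (w j x) = if i = j then mu x else 0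

/-- The triple `w` has a cohomologous deformation to a hyperkaehler triple: a family `Ω t`,
smooth in `(t, x)`, of hypersymplectic triples for `0 ≤ t ≤ 1`, each cohomologous to `w`,
with `Ω 0 = w` and `Ω 1` hyperkaehler. -/
def HasHyperkahlerDeformation
    (w : Fin 3 → (Fin 4 → ℝ) → (Fin 4 → ℝ) [⋀^Fin 2]→L[ℝ] ℝ) : Prop :=
  ∃ Ω : ℝ → Fin 3 → (Fin 4 → ℝ) → (Fin 4 → ℝ) [⋀^Fin 2]→L[ℝ] ℝ,
    (∀ i, ContDiff ℝ ∞ fun p : ℝ × (Fin 4 → ℝ) => Ω p.1 i p.2) ∧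
    (∀ t ∈ Set.Icc (0 : ℝ) 1, IsHypersymplectic (Ω t) ∧ ∀ i, Cohomologous (Ω t i) (w i)) ∧
    Ω 0 = w ∧ IsHyperkahler (Ω 1)

/-- The triple `e i + c i • dβ`: a constant triple `e` perturbed by multiples of the exact
two-form `dβ`. -/
noncomputable def rankOnePert (e : Fin 3 → (Fin 4 → ℝ) [⋀^Fin 2]→L[ℝ] ℝ) (c : Fin 3 → ℝ)
    (β : (Fin 4 → ℝ) → (Fin 4 → ℝ) [⋀^Fin 1]→L[ℝ] ℝ) :
    Fin 3 → (Fin 4 → ℝ) → (Fin 4 → ℝ) [⋀^Fin 2]→L[ℝ] ℝ :=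
  fun i x => e i + c i • extDeriv β x

end Vale.Agent.H66
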