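import Mathlib
import Vale.Agent.H66.Wedge4

/-!
# Two-forms on the four-torus `ℝ⁴/ℤ⁴` (as `ℤ⁴`-periodic forms on `ℝ⁴`)

Helper definitions and lemmas for P247 (hypersymplectic structures).
-/

namespace Vale.Agent.H66

open Set MeasureTheory

theorem wedge4_comm (a b : (Fin 4 → ℝ) [⋀^Fin 2]→L[ℝ] ℝ) : wedge4 a b = wedge4 b a := by
  unfold wedge4; ring

theorem wedge4_add_left (a a' b : (Fin 4 → ℝ) [⋀^Fin 2]→L[ℝ] ℝ) :
    wedge4 (a + a') b = wedge4 a b + wedge4 a' b := by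
  unfold wedge4; simp only [ContinuousAlternatingMap.add_apply]; ring

theorem wedge4_smul_left (s : ℝ) (a b : (Fin 4 → ℝ) [⋀^Fin 2]→L[ℝ] ℝ) :
    wedge4 (s • a) b = s * wedge4 a b := by
  unfold wedge4; simp only [ContinuousAlternatingMap.smul_apply, smul_eq_mul]; ring

theorem wedge4_add_right (a b b' : (Fin 4 → ℝ) [⋀^Fin 2]→L[ℝ] ℝ) :
    wedge4 a (b + b') = wedge4 a b + wedge4 a b' := by
  rw [wedge4_comm, wedge4_add_left, wedge4_comm b, wedge4_comm b']

theorem wedge4_smul_right (s : ℝ) (a b : (Fin 4 → ℝ) [⋀^Fin 2]→L[ℝ] ℝ) :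
    wedge4 a (s • b) = s * wedge4 a b := by
  rw [wedge4_comm, wedge4_smul_left, wedge4_comm]

theorem wedge4_sub_left (a a' b : (Fin 4 → ℝ) [⋀^Fin 2]→L[ℝ] ℝ) :
    wedge4 (a - a') b = wedge4 a b - wedge4 a' b := by
  unfold wedge4; simp only [ContinuousAlternatingMap.sub_apply]; ring

/-- The self-dual projection of a 2-form (three coordinates). -/
noncomputable def sdPart : ((Fin 4 → ℝ) [⋀^Fin 2]→L[ℝ] ℝ) →ₗ[ℝ] (Fin 3 → ℝ) where
  toFun a := ![a ![Pi.single 0 1, Pi.single 1 1] + a ![Pi.single 2 1, Pi.single 3 1],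
               a ![Pi.single 0 1, Pi.single 2 1] - a ![Pi.single 1 1, Pi.single 3 1],
               a ![Pi.single 0 1, Pi.single 3 1] + a ![Pi.single 1 1, Pi.single 2 1]]
  map_add' a b := by
    ext i; fin_cases i <;> simp [ContinuousAlternatingMap.add_apply] <;> ring
  map_smul' s a := by
    ext i; fin_cases i <;> simp [ContinuousAlternatingMap.smul_apply] <;> ring

theorem wedge4_self_nonpos_of_sdPart_eq_zero (a : (Fin 4 → ℝ) [⋀^Fin 2]→L[ℝ] ℝ)
    (h : sdPart a = 0) : wedge4 a a ≤ 0 := by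
  have h0 := congrFun h 0
  have h1 := congrFun h 1
  have h2 := congrFun h 2
  simp [sdPart] at h0 h1 h2
  have e0 : a ![Pi.single 2 1, Pi.single 3 1] = -a ![Pi.single 0 1, Pi.single 1 1] := by linarith
  have e1 : a ![Pi.single 1 1, Pi.single 3 1] = a ![Pi.single 0 1, Pi.single 2 1] := by linarith
  have e2 : a ![Pi.single 1 1, Pi.single 2 1] = -a ![Pi.single 0 1, Pi.single 3 1] := by linarith
  unfold wedge4
  rw [e0, e1, e2]
  nlinarith [sq_nonneg (a ![Pi.single 0 1, Pi.single 1 1]),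
    sq_nonneg (a ![Pi.single 0 1, Pi.single 2 1]), sq_nonneg (a ![Pi.single 0 1, Pi.single 3 1])]

theorem wedge4_sum_left {ι : Type*} (s : Finset ι) (f : ι → (Fin 4 → ℝ) [⋀^Fin 2]→L[ℝ] ℝ)
    (b : (Fin 4 → ℝ) [⋀^Fin 2]→L[ℝ] ℝ) :
    wedge4 (∑ i ∈ s, f i) b = ∑ i ∈ s, wedge4 (f i) b := by
  classical
  induction s using Finset.induction_on with
  | empty =>
    simp only [Finset.sum_empty]
    unfold wedge4; simp
  | insert a s ha ih => rw [Finset.sum_insert ha, Finset.sum_insert ha, wedge4_add_left, ih]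

/-- The wedge pairing has signature `(3,3)`: it is negative semidefinite on the orthogonal
complement of a positive orthogonal triple. -/
theorem wedge4_signature (e : Fin 3 → (Fin 4 → ℝ) [⋀^Fin 2]→L[ℝ] ℝ) (lam : ℝ) (hlam : 0 < lam)
    (he : ∀ i j, wedge4 (e i) (e j) = if i = j then lam else 0)
    (D : (Fin 4 → ℝ) [⋀^Fin 2]→L[ℝ] ℝ) :
    lam * wedge4 D D ≤ ∑ i, wedge4 (e i) D ^ 2 := by
  by_contra hcon
  rw [not_le] at hcon
  set D' : (Fin 4 → ℝ) [⋀^Fin 2]→L[ℝ] ℝ := lam • D - ∑ i, wedge4 (e i) D • e i with hD'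
  have h1 : ∀ j, wedge4 D' (e j) = 0 := by
    intro j
    rw [hD', wedge4_sub_left, wedge4_smul_left, wedge4_sum_left]
    simp only [wedge4_smul_left, he]
    simp only [mul_ite, mul_zero, Finset.sum_ite_eq', Finset.mem_univ, if_true]
    rw [wedge4_comm D (e j)]; ring
  have h1' : ∀ j, wedge4 (e j) D' = 0 := fun j => by rw [wedge4_comm]; exact h1 j
  have h2 : wedge4 D' D' = lam * (lam * wedge4 D D - ∑ i, wedge4 (e i) D ^ 2) := by
    have : wedge4 D' D' = wedge4 D' (lam • D) - wedge4 D' (∑ i, wedge4 (e i) D • e i) := by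
      conv_lhs => rw [hD']
      rw [wedge4_comm, wedge4_sub_left, wedge4_comm, wedge4_comm (∑ i, wedge4 (e i) D • e i)]
    rw [this, wedge4_comm D' (∑ i, wedge4 (e i) D • e i), wedge4_sum_left]
    simp only [wedge4_smul_left, h1', mul_zero, Finset.sum_const_zero, sub_zero]
    rw [wedge4_smul_right, hD', wedge4_sub_left, wedge4_smul_left, wedge4_sum_left]
    simp only [wedge4_smul_left]
    congr 1
    congr 1
    apply Finset.sum_congr rfl
    intro i _
    ring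
  have hpos : 0 < wedge4 D' D' := by
    rw [h2]; apply mul_pos hlam; linarith
  let w : Fin 4 → (Fin 4 → ℝ) [⋀^Fin 2]→L[ℝ] ℝ := ![e 0, e 1, e 2, D']
  let M : (Fin 4 → ℝ) →ₗ[ℝ] ((Fin 4 → ℝ) [⋀^Fin 2]→L[ℝ] ℝ) :=
    ∑ i : Fin 4, (LinearMap.proj i : (Fin 4 → ℝ) →ₗ[ℝ] ℝ).smulRight (w i)
  have hker : LinearMap.ker (sdPart.comp M) ≠ ⊥ := by
    apply LinearMap.ker_ne_bot_of_finrank_lt
    simp
  obtain ⟨t, ht, ht0⟩ := (Submodule.ne_bot_iff _).1 hker
  have hMt : M t = t 0 • e 0 + t 1 • e 1 + t 2 • e 2 + t 3 • D' := by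
    simp [M, w, Fin.sum_univ_four]
  have hsd : sdPart (M t) = 0 := by
    simpa using ht
  have hle := wedge4_self_nonpos_of_sdPart_eq_zero (M t) hsd
  have hval : wedge4 (M t) (M t) =
      lam * (t 0 ^ 2 + t 1 ^ 2 + t 2 ^ 2) + t 3 ^ 2 * wedge4 D' D' := by
    rw [hMt]
    simp only [wedge4_add_left, wedge4_add_right, wedge4_smul_left, wedge4_smul_right, he, h1, h1']
    simp
    ring
  rw [hval] at hle
  have n0 := mul_nonneg hlam.le (sq_nonneg (t 0))
  have n1 := mul_nonneg hlam.le (sq_nonneg (t 1))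
  have n2 := mul_nonneg hlam.le (sq_nonneg (t 2))
  have n3 := mul_nonneg (sq_nonneg (t 3)) hpos.le
  have z : ∀ {a b : ℝ}, 0 < a → a * b ^ 2 ≤ 0 → b = 0 := by
    intro a b ha hab
    by_contra hb
    have : 0 < b ^ 2 := by positivity
    nlinarith [mul_pos ha this]
  have h0 : t 0 = 0 := z hlam (by nlinarith)
  have h1z : t 1 = 0 := z hlam (by nlinarith)
  have h2z : t 2 = 0 := z hlam (by nlinarith)
  have h3z : t 3 = 0 := z hpos (by nlinarith)
  apply ht0
  ext i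
  fin_cases i <;> simp [h0, h1z, h2z, h3z]

end Vale.Agent.H66
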