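import Mathlib
import Vale.Agent.H66.T4Forms

namespace Vale.Agent.H66

open Set MeasureTheory

/-- The integral over the unit cube of a partial derivative of a `ℤ⁴`-periodic `C¹` function
vanishes. -/
theorem integral_partial_deriv_periodic (g : (Fin 4 → ℝ) → ℝ) (hg : ContDiff ℝ 1 g)
    (hper : ∀ i x, g (x + Pi.single i 1) = g x) (k : Fin 4) :
    ∫ x in Icc (0 : Fin 4 → ℝ) 1, fderiv ℝ g x (Pi.single k 1) = 0 := by
  have hcont : Continuous (fun x => fderiv ℝ g x (Pi.single k 1)) := by
    have : Continuous (fderiv ℝ g) := hg.continuous_fderiv one_ne_zero
    exact this.clm_apply continuous_const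
  have key := integral_divergence_of_hasFDerivAt_off_countable' (n := 3) (0 : Fin 4 → ℝ) 1
    (by intro i; simp)
    (fun i => if i = k then g else 0) (fun i x => if i = k then fderiv ℝ g x else 0) ∅
    countable_empty
    (by
      intro i
      by_cases h : i = k
      · simp only [h, if_true]; exact hg.continuous.continuousOn
      · simp only [h, if_false]; exact continuousOn_const)
    (by
      intro x _ i
      by_cases h : i = k
      · simp only [h, if_true]; exact (hg.differentiable one_ne_zero x).hasFDerivAt
      · simp only [h, if_false]; exact hasFDerivAt_const _ _)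
    (by
      have : (fun x => ∑ i, (if i = k then fderiv ℝ g x else 0) (Pi.single i 1))
          = fun x => fderiv ℝ g x (Pi.single k 1) := by
        funext x
        rw [Finset.sum_eq_single k]
        · simp
        · intro b _ hb; simp [hb]
        · intro h; exact absurd (Finset.mem_univ k) h
      rw [this]
      exact hcont.continuousOn.integrableOn_compact isCompact_Icc)
  have e1 : (fun x => ∑ i, (if i = k then fderiv ℝ g x else 0) (Pi.single i 1))
      = fun x => fderiv ℝ g x (Pi.single k 1) := by
    funext x
    rw [Finset.sum_eq_single k]
    · simp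
    · intro b _ hb; simp [hb]
    · intro h; exact absurd (Finset.mem_univ k) h
  rw [e1] at key
  rw [key]
  apply Finset.sum_eq_zero
  intro i _
  by_cases h : i = k
  · subst h
    simp only [if_true]
    rw [sub_eq_zero]
    apply integral_congr_ae
    filter_upwards with y
    have : (Fin.insertNth (α := fun _ => ℝ) i ((1 : Fin 4 → ℝ) i) y : Fin 4 → ℝ)
        = Fin.insertNth (α := fun _ => ℝ) i ((0 : Fin 4 → ℝ) i) y + Pi.single i 1 := by
      ext j
      by_cases hj : j = i
      · subst hj; simp
      · obtain ⟨j', rfl⟩ := Fin.exists_succAbove_eq hj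
        simp [hj]
    rw [this, hper]
  · simp [h]

end Vale.Agent.H66
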