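import Mathlib
import Vale.Agent.H66.T4Forms
import Vale.Agent.H66.T4Integral

namespace Vale.Agent.H66

open Set MeasureTheory
open scoped ContDiff

theorem extDeriv_one_apply (β : (Fin 4 → ℝ) → (Fin 4 → ℝ) [⋀^Fin 1]→L[ℝ] ℝ) (x : Fin 4 → ℝ)
    (hβ : DifferentiableAt ℝ β x) (u v : Fin 4 → ℝ) :
    extDeriv β x ![u, v] = fderiv ℝ (fun y => β y ![v]) x u - fderiv ℝ (fun y => β y ![u]) x v := by
  rw [extDeriv_apply hβ]
  have h0 : Fin.removeNth (0 : Fin 2) ![u, v] = ![v] := by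
    ext i j; fin_cases i; simp [Fin.removeNth]
  have h1 : Fin.removeNth (1 : Fin 2) ![u, v] = ![u] := by
    ext i j; fin_cases i; simp [Fin.removeNth]
  rw [Fin.sum_univ_two, h0, h1]
  simp
  ring

theorem extDeriv_eq_clm {n : ℕ} (β : (Fin 4 → ℝ) → (Fin 4 → ℝ) [⋀^Fin n]→L[ℝ] ℝ) :
    extDeriv β = fun x =>
      ContinuousAlternatingMap.alternatizeUncurryFinCLM ℝ (Fin 4 → ℝ) ℝ (fderiv ℝ β x) := by
  funext x
  rw [ContinuousAlternatingMap.alternatizeUncurryFinCLM_apply]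
  rfl

theorem contDiff_extDeriv {n : ℕ} (β : (Fin 4 → ℝ) → (Fin 4 → ℝ) [⋀^Fin n]→L[ℝ] ℝ)
    (hβ : ContDiff ℝ ∞ β) : ContDiff ℝ ∞ (extDeriv β) := by
  rw [extDeriv_eq_clm]
  exact (ContinuousLinearMap.contDiff _).comp (hβ.fderiv_right (by simp))

theorem extDeriv_periodic {n : ℕ} (β : (Fin 4 → ℝ) → (Fin 4 → ℝ) [⋀^Fin n]→L[ℝ] ℝ)
    (a : Fin 4 → ℝ) (hper : ∀ x, β (x + a) = β x) (x : Fin 4 → ℝ) :
    extDeriv β (x + a) = extDeriv β x := by
  have h : (fun y => β (y + a)) = β := funext hper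
  have h2 : fderiv ℝ (fun y => β (y + a)) x = fderiv ℝ β (x + a) := fderiv_comp_add_right a
  rw [h] at h2
  simp only [extDeriv]
  rw [h2]

theorem extDeriv_const {n : ℕ} (C : (Fin 4 → ℝ) [⋀^Fin n]→L[ℝ] ℝ) :
    extDeriv (fun _ : Fin 4 → ℝ => C) = 0 := by
  funext x
  have h : fderiv ℝ (fun _ : Fin 4 → ℝ => C) x = 0 := by
    rw [(hasFDerivAt_const C x).fderiv]
  simp only [extDeriv, Pi.zero_apply]
  rw [h, ← ContinuousAlternatingMap.alternatizeUncurryFinCLM_apply, map_zero]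

/-- The wedge of a constant 2-form with an exact periodic 2-form integrates to zero over the
fundamental domain. -/
theorem integral_wedge4_extDeriv (C : (Fin 4 → ℝ) [⋀^Fin 2]→L[ℝ] ℝ)
    (β : (Fin 4 → ℝ) → (Fin 4 → ℝ) [⋀^Fin 1]→L[ℝ] ℝ) (hβ : ContDiff ℝ ∞ β)
    (hper : ∀ i x, β (x + Pi.single i 1) = β x) :
    ∫ x in Icc (0 : Fin 4 → ℝ) 1, wedge4 C (extDeriv β x) = 0 := by
  set G : Fin 4 → Fin 4 → (Fin 4 → ℝ) → ℝ := fun k l x =>
    fderiv ℝ (fun y => β y ![Pi.single l 1]) x (Pi.single k 1) with hG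
  have hg : ∀ l : Fin 4, ContDiff ℝ 1 (fun y => β y ![Pi.single l (1 : ℝ)]) := fun l =>
    ((ContinuousAlternatingMap.apply ℝ (Fin 4 → ℝ) ℝ ![Pi.single l 1]).contDiff.comp hβ).of_le
      (by simp)
  have hGint : ∀ k l, ∫ x in Icc (0 : Fin 4 → ℝ) 1, G k l x = 0 := fun k l =>
    integral_partial_deriv_periodic _ (hg l) (fun i x => by rw [hper]) k
  have hGcont : ∀ k l, Continuous (G k l) := fun k l =>
    ((hg l).continuous_fderiv one_ne_zero).clm_apply continuous_const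
  have hGi : ∀ k l, IntegrableOn (G k l) (Icc (0 : Fin 4 → ℝ) 1) := fun k l =>
    (hGcont k l).continuousOn.integrableOn_compact isCompact_Icc
  have hD : ∀ x (k l : Fin 4),
      extDeriv β x ![Pi.single k 1, Pi.single l 1] = G k l x - G l k x := by
    intro x k l
    rw [extDeriv_one_apply β x (hβ.differentiable (by simp) x)]
  set a : Fin 4 → Fin 4 → ℝ := fun k l =>
    (!![0, C ![Pi.single 2 1, Pi.single 3 1], -C ![Pi.single 1 1, Pi.single 3 1],
          C ![Pi.single 1 1, Pi.single 2 1];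
        -C ![Pi.single 2 1, Pi.single 3 1], 0, C ![Pi.single 0 1, Pi.single 3 1],
          -C ![Pi.single 0 1, Pi.single 2 1];
        C ![Pi.single 1 1, Pi.single 3 1], -C ![Pi.single 0 1, Pi.single 3 1], 0,
          C ![Pi.single 0 1, Pi.single 1 1];
        -C ![Pi.single 1 1, Pi.single 2 1], C ![Pi.single 0 1, Pi.single 2 1],
          -C ![Pi.single 0 1, Pi.single 1 1], 0] : Matrix (Fin 4) (Fin 4) ℝ) k l with ha
  have hform : ∀ x, wedge4 C (extDeriv β x) = ∑ k, ∑ l, a k l * G k l x := by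
    intro x
    unfold wedge4
    simp only [hD, ha, Fin.sum_univ_four]
    simp
    ring
  simp only [hform]
  rw [integral_finsetSum]
  · apply Finset.sum_eq_zero
    intro k _
    rw [integral_finsetSum]
    · apply Finset.sum_eq_zero
      intro l _
      rw [integral_const_mul, hGint, mul_zero]
    · intro l _
      exact (hGi k l).const_mul _
  · intro k _
    apply integrable_finsetSum
    intro l _
    exact (hGi k l).const_mul _

end Vale.Agent.H66
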