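import Mathlib

namespace Vale.Agent.H66

theorem cs3 (c0 c1 c2 z0 z1 z2 : ℝ) :
    (c0 * z0 + c1 * z1 + c2 * z2) ^ 2 ≤ (c0 ^ 2 + c1 ^ 2 + c2 ^ 2) * (z0 ^ 2 + z1 ^ 2 + z2 ^ 2) := by
  nlinarith [sq_nonneg (c0 * z1 - c1 * z0), sq_nonneg (c0 * z2 - c2 * z0),
    sq_nonneg (c1 * z2 - c2 * z1)]

/-- Core inequality: positivity of the rank-one pencil along the linear path. -/
theorem rankOne_core (lam q c0 c1 c2 p0 p1 p2 : ℝ) (hlam : 0 < lam)
    (h1 : ∀ w0 w1 w2 : ℝ, (w0 ≠ 0 ∨ w1 ≠ 0 ∨ w2 ≠ 0) →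
      0 < lam * (w0 ^ 2 + w1 ^ 2 + w2 ^ 2)
        + 2 * (c0 * w0 + c1 * w1 + c2 * w2) * (p0 * w0 + p1 * w1 + p2 * w2)
        + (c0 * w0 + c1 * w1 + c2 * w2) ^ 2 * q)
    (hT : lam * q ≤ p0 ^ 2 + p1 ^ 2 + p2 ^ 2)
    (hsign : 0 < lam + (c0 * p0 + c1 * p1 + c2 * p2))
    (s : ℝ) (hs0 : 0 ≤ s) (hs1 : s ≤ 1) (v0 v1 v2 : ℝ) (hv : v0 ≠ 0 ∨ v1 ≠ 0 ∨ v2 ≠ 0) :
    0 < lam * (v0 ^ 2 + v1 ^ 2 + v2 ^ 2)
        + 2 * s * (c0 * v0 + c1 * v1 + c2 * v2) * (p0 * v0 + p1 * v1 + p2 * v2)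
        + s ^ 2 * (c0 * v0 + c1 * v1 + c2 * v2) ^ 2 * q := by
  have hV2 : 0 < v0 ^ 2 + v1 ^ 2 + v2 ^ 2 := by
    rcases hv with h | h | h
    · have := sq_pos_of_ne_zero h; positivity
    · have := sq_pos_of_ne_zero h; positivity
    · have := sq_pos_of_ne_zero h; positivity
  set A : ℝ := c0 * v0 + c1 * v1 + c2 * v2 with hAdef
  by_cases hA : A = 0
  · rw [hA]
    have : lam * (v0 ^ 2 + v1 ^ 2 + v2 ^ 2) + 2 * s * 0 * (p0 * v0 + p1 * v1 + p2 * v2)
        + s ^ 2 * 0 ^ 2 * q = lam * (v0 ^ 2 + v1 ^ 2 + v2 ^ 2) := by ring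
    rw [this]; positivity
  · set C2 : ℝ := c0 ^ 2 + c1 ^ 2 + c2 ^ 2 with hC2def
    set P : ℝ := c0 * p0 + c1 * p1 + c2 * p2 with hPdef
    set P2 : ℝ := p0 ^ 2 + p1 ^ 2 + p2 ^ 2 with hP2def
    have hC2 : 0 < C2 := by
      by_contra hneg
      rw [not_lt] at hneg
      have e0 : c0 = 0 := by nlinarith [sq_nonneg c0, sq_nonneg c1, sq_nonneg c2]
      have e1 : c1 = 0 := by nlinarith [sq_nonneg c0, sq_nonneg c1, sq_nonneg c2]
      have e2 : c2 = 0 := by nlinarith [sq_nonneg c0, sq_nonneg c1, sq_nonneg c2]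
      apply hA
      rw [hAdef, e0, e1, e2]; ring
    -- the extremal test vector
    have hw := h1 ((lam + P) * c0 - C2 * p0) ((lam + P) * c1 - C2 * p1) ((lam + P) * c2 - C2 * p2)
      (by
        by_contra hcon
        rw [not_or, not_or, not_not, not_not, not_not] at hcon
        obtain ⟨z0, z1, z2⟩ := hcon
        have : c0 * ((lam + P) * c0 - C2 * p0) + c1 * ((lam + P) * c1 - C2 * p1)
            + c2 * ((lam + P) * c2 - C2 * p2) = lam * C2 := by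
          rw [hPdef, hC2def]; ring
        rw [z0, z1, z2] at this
        have h0 : lam * C2 = 0 := by rw [← this]; ring
        have : 0 < lam * C2 := mul_pos hlam hC2
        linarith)
    have hkey : 0 < (lam + P) ^ 2 - C2 * (P2 - lam * q) := by
      have e : lam * (((lam + P) * c0 - C2 * p0) ^ 2 + ((lam + P) * c1 - C2 * p1) ^ 2
            + ((lam + P) * c2 - C2 * p2) ^ 2)
          + 2 * (c0 * ((lam + P) * c0 - C2 * p0) + c1 * ((lam + P) * c1 - C2 * p1)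
            + c2 * ((lam + P) * c2 - C2 * p2))
            * (p0 * ((lam + P) * c0 - C2 * p0) + p1 * ((lam + P) * c1 - C2 * p1)
            + p2 * ((lam + P) * c2 - C2 * p2))
          + (c0 * ((lam + P) * c0 - C2 * p0) + c1 * ((lam + P) * c1 - C2 * p1)
            + c2 * ((lam + P) * c2 - C2 * p2)) ^ 2 * q
          = (lam * C2) * ((lam + P) ^ 2 - C2 * (P2 - lam * q)) := by
        rw [hPdef, hC2def, hP2def]; ring
      rw [e] at hw
      exact (mul_pos_iff_of_pos_left (mul_pos hlam hC2)).mp hw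
    -- Cauchy-Schwarz
    have hCS : A ^ 2 * (lam + s * P) ^ 2
        ≤ C2 * ((lam * v0 + s * A * p0) ^ 2 + (lam * v1 + s * A * p1) ^ 2
          + (lam * v2 + s * A * p2) ^ 2) := by
      have e : A * (lam + s * P) = c0 * (lam * v0 + s * A * p0) + c1 * (lam * v1 + s * A * p1)
          + c2 * (lam * v2 + s * A * p2) := by
        rw [hPdef]
        have : lam * A = lam * (c0 * v0 + c1 * v1 + c2 * v2) := by rw [hAdef]
        linear_combination this
      have e' : A ^ 2 * (lam + s * P) ^ 2 = (A * (lam + s * P)) ^ 2 := by ring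
      rw [e', e, hC2def]
      exact cs3 _ _ _ _ _ _
    have hτ : 0 ≤ P2 - lam * q := by linarith
    have hbound : (1 - s) ^ 2 * lam ^ 2 + s ^ 2 * ((lam + P) ^ 2 - C2 * (P2 - lam * q))
        ≤ (lam + s * P) ^ 2 - s ^ 2 * (C2 * (P2 - lam * q)) := by
      have h2 : 0 ≤ 2 * ((1 - s) * lam) * (s * (lam + P)) := by
        have : 0 ≤ 1 - s := by linarith
        have h3 : 0 ≤ lam + P := hsign.le
        positivity
      have e : (lam + s * P) ^ 2 - s ^ 2 * (C2 * (P2 - lam * q))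
          - ((1 - s) ^ 2 * lam ^ 2 + s ^ 2 * ((lam + P) ^ 2 - C2 * (P2 - lam * q)))
          = 2 * ((1 - s) * lam) * (s * (lam + P)) := by ring
      linarith
    have hpos2 : 0 < (1 - s) ^ 2 * lam ^ 2 + s ^ 2 * ((lam + P) ^ 2 - C2 * (P2 - lam * q)) := by
      by_cases hs : s = 0
      · rw [hs]; simp; positivity
      · have : 0 < s ^ 2 := by positivity
        have h3 : 0 < s ^ 2 * ((lam + P) ^ 2 - C2 * (P2 - lam * q)) := mul_pos this hkey
        have h4 : 0 ≤ (1 - s) ^ 2 * lam ^ 2 := by positivity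
        linarith
    have hA2 : 0 < A ^ 2 := by positivity
    have hfinal : 0 < (lam * C2) * (lam * (v0 ^ 2 + v1 ^ 2 + v2 ^ 2)
        + 2 * s * A * (p0 * v0 + p1 * v1 + p2 * v2) + s ^ 2 * A ^ 2 * q) := by
      have e : (lam * C2) * (lam * (v0 ^ 2 + v1 ^ 2 + v2 ^ 2)
          + 2 * s * A * (p0 * v0 + p1 * v1 + p2 * v2) + s ^ 2 * A ^ 2 * q)
          = C2 * ((lam * v0 + s * A * p0) ^ 2 + (lam * v1 + s * A * p1) ^ 2
            + (lam * v2 + s * A * p2) ^ 2) - A ^ 2 * (s ^ 2 * (C2 * (P2 - lam * q))) := by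
        rw [hP2def]; ring
      rw [e]
      have h5 : 0 < A ^ 2 * ((lam + s * P) ^ 2 - s ^ 2 * (C2 * (P2 - lam * q))) :=
        mul_pos hA2 (lt_of_lt_of_le hpos2 hbound)
      have h6 : A ^ 2 * ((lam + s * P) ^ 2 - s ^ 2 * (C2 * (P2 - lam * q)))
          = A ^ 2 * (lam + s * P) ^ 2 - A ^ 2 * (s ^ 2 * (C2 * (P2 - lam * q))) := by ring
      linarith
    exact (mul_pos_iff_of_pos_left (mul_pos hlam hC2)).mp hfinal

/-- Nonvanishing of the sign function `lam + c·p` at a hypersymplectic point. -/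
theorem rankOne_ne (lam q c0 c1 c2 p0 p1 p2 : ℝ) (hlam : 0 < lam)
    (h1 : ∀ w0 w1 w2 : ℝ, (w0 ≠ 0 ∨ w1 ≠ 0 ∨ w2 ≠ 0) →
      0 < lam * (w0 ^ 2 + w1 ^ 2 + w2 ^ 2)
        + 2 * (c0 * w0 + c1 * w1 + c2 * w2) * (p0 * w0 + p1 * w1 + p2 * w2)
        + (c0 * w0 + c1 * w1 + c2 * w2) ^ 2 * q)
    (hT : lam * q ≤ p0 ^ 2 + p1 ^ 2 + p2 ^ 2) :
    lam + (c0 * p0 + c1 * p1 + c2 * p2) ≠ 0 := by
  set C2 : ℝ := c0 ^ 2 + c1 ^ 2 + c2 ^ 2 with hC2def
  set P : ℝ := c0 * p0 + c1 * p1 + c2 * p2 with hPdef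
  set P2 : ℝ := p0 ^ 2 + p1 ^ 2 + p2 ^ 2 with hP2def
  by_cases hC2 : 0 < C2
  · have hw := h1 ((lam + P) * c0 - C2 * p0) ((lam + P) * c1 - C2 * p1) ((lam + P) * c2 - C2 * p2)
      (by
        by_contra hcon
        rw [not_or, not_or, not_not, not_not, not_not] at hcon
        obtain ⟨z0, z1, z2⟩ := hcon
        have : c0 * ((lam + P) * c0 - C2 * p0) + c1 * ((lam + P) * c1 - C2 * p1)
            + c2 * ((lam + P) * c2 - C2 * p2) = lam * C2 := by
          rw [hPdef, hC2def]; ring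
        rw [z0, z1, z2] at this
        have h0 : lam * C2 = 0 := by rw [← this]; ring
        have : 0 < lam * C2 := mul_pos hlam hC2
        linarith)
    have hkey : 0 < (lam + P) ^ 2 - C2 * (P2 - lam * q) := by
      have e : lam * (((lam + P) * c0 - C2 * p0) ^ 2 + ((lam + P) * c1 - C2 * p1) ^ 2
            + ((lam + P) * c2 - C2 * p2) ^ 2)
          + 2 * (c0 * ((lam + P) * c0 - C2 * p0) + c1 * ((lam + P) * c1 - C2 * p1)
            + c2 * ((lam + P) * c2 - C2 * p2))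
            * (p0 * ((lam + P) * c0 - C2 * p0) + p1 * ((lam + P) * c1 - C2 * p1)
            + p2 * ((lam + P) * c2 - C2 * p2))
          + (c0 * ((lam + P) * c0 - C2 * p0) + c1 * ((lam + P) * c1 - C2 * p1)
            + c2 * ((lam + P) * c2 - C2 * p2)) ^ 2 * q
          = (lam * C2) * ((lam + P) ^ 2 - C2 * (P2 - lam * q)) := by
        rw [hPdef, hC2def, hP2def]; ring
      rw [e] at hw
      exact (mul_pos_iff_of_pos_left (mul_pos hlam hC2)).mp hw
    intro h0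
    rw [h0] at hkey
    have hτ : 0 ≤ C2 * (P2 - lam * q) := mul_nonneg hC2.le (by linarith)
    nlinarith
  · rw [not_lt] at hC2
    have e0 : c0 = 0 := by nlinarith [sq_nonneg c0, sq_nonneg c1, sq_nonneg c2]
    have e1 : c1 = 0 := by nlinarith [sq_nonneg c0, sq_nonneg c1, sq_nonneg c2]
    have e2 : c2 = 0 := by nlinarith [sq_nonneg c0, sq_nonneg c1, sq_nonneg c2]
    rw [hPdef, e0, e1, e2]
    intro h
    linarith

end Vale.Agent.H66
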