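import Mathlib
import Vale.Agent.H66.T4Forms
import Vale.Agent.H66.T4Integral
import Vale.Agent.H66.T4Algebra
import Vale.Agent.H66.T4Exact
import Vale.Agent.H66.T4Defs

namespace Vale.Agent.H66

open Set MeasureTheory
open scoped ContDiff

theorem continuous_wedge4_right (C : (Fin 4 → ℝ) [⋀^Fin 2]→L[ℝ] ℝ) :
    Continuous (fun D : (Fin 4 → ℝ) [⋀^Fin 2]→L[ℝ] ℝ => wedge4 C D) := by
  have h : ∀ m : Fin 2 → (Fin 4 → ℝ),
      Continuous (fun D : (Fin 4 → ℝ) [⋀^Fin 2]→L[ℝ] ℝ => D m) := fun m =>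
    (ContinuousAlternatingMap.apply ℝ (Fin 4 → ℝ) ℝ m).continuous
  unfold wedge4
  exact (((((continuous_const.mul (h _)).sub (continuous_const.mul (h _))).add
    (continuous_const.mul (h _))).add (continuous_const.mul (h _))).sub
    (continuous_const.mul (h _))).add (continuous_const.mul (h _))

/-- The quadratic form of the Gram matrix of the triple `e i + (s * c i) • D`. -/
theorem quad_eq (e : Fin 3 → (Fin 4 → ℝ) [⋀^Fin 2]→L[ℝ] ℝ) (lam : ℝ)
    (he : ∀ i j, wedge4 (e i) (e j) = if i = j then lam else 0)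
    (c : Fin 3 → ℝ) (D : (Fin 4 → ℝ) [⋀^Fin 2]→L[ℝ] ℝ) (s : ℝ) (v : Fin 3 → ℝ) :
    star v ⬝ᵥ (Matrix.mulVec
        (Matrix.of fun i j => wedge4 (e i + (s * c i) • D) (e j + (s * c j) • D)) v)
      = lam * (v 0 ^ 2 + v 1 ^ 2 + v 2 ^ 2)
        + 2 * s * (c 0 * v 0 + c 1 * v 1 + c 2 * v 2)
          * (wedge4 (e 0) D * v 0 + wedge4 (e 1) D * v 1 + wedge4 (e 2) D * v 2)
        + s ^ 2 * (c 0 * v 0 + c 1 * v 1 + c 2 * v 2) ^ 2 * wedge4 D D := by
  have hent : ∀ i j, wedge4 (e i + (s * c i) • D) (e j + (s * c j) • D)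
      = (if i = j then lam else 0) + (s * c j) * wedge4 (e i) D + (s * c i) * wedge4 (e j) D
        + (s * c i) * (s * c j) * wedge4 D D := by
    intro i j
    rw [wedge4_add_left, wedge4_add_right, wedge4_add_right, wedge4_smul_left, wedge4_smul_left,
      wedge4_smul_right, wedge4_smul_right, he, wedge4_comm D (e j)]
    ring
  simp only [dotProduct, Matrix.mulVec, Fin.sum_univ_three, Matrix.of_apply, hent, star_trivial,
    Pi.star_apply]
  simp
  ring

/-- Pointwise consequence of positive definiteness, in coordinates. -/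
theorem pd_coord (e : Fin 3 → (Fin 4 → ℝ) [⋀^Fin 2]→L[ℝ] ℝ) (lam : ℝ)
    (he : ∀ i j, wedge4 (e i) (e j) = if i = j then lam else 0)
    (c : Fin 3 → ℝ) (D : (Fin 4 → ℝ) [⋀^Fin 2]→L[ℝ] ℝ)
    (hpd : (Matrix.of fun i j => wedge4 (e i + c i • D) (e j + c j • D)).PosDef)
    (w0 w1 w2 : ℝ) (hw : w0 ≠ 0 ∨ w1 ≠ 0 ∨ w2 ≠ 0) :
    0 < lam * (w0 ^ 2 + w1 ^ 2 + w2 ^ 2)
        + 2 * (c 0 * w0 + c 1 * w1 + c 2 * w2)
          * (wedge4 (e 0) D * w0 + wedge4 (e 1) D * w1 + wedge4 (e 2) D * w2)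
        + (c 0 * w0 + c 1 * w1 + c 2 * w2) ^ 2 * wedge4 D D := by
  have hne : (![w0, w1, w2] : Fin 3 → ℝ) ≠ 0 := by
    intro h
    have h0 := congrFun h 0
    have h1 := congrFun h 1
    have h2 := congrFun h 2
    simp at h0 h1 h2
    rcases hw with h' | h' | h'
    · exact h' h0
    · exact h' h1
    · exact h' h2
  have hM : (Matrix.of fun i j => wedge4 (e i + c i • D) (e j + c j • D))
      = Matrix.of fun i j => wedge4 (e i + (1 * c i) • D) (e j + (1 * c j) • D) := by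
    simp only [one_mul]
  have h := hpd.dotProduct_mulVec_pos hne
  rw [hM, quad_eq e lam he c D 1 ![w0, w1, w2]] at h
  simp only [Matrix.cons_val_zero, Matrix.cons_val_one, Matrix.cons_val_two, Matrix.head_cons,
    Matrix.tail_cons] at h
  have e1 : lam * (w0 ^ 2 + w1 ^ 2 + w2 ^ 2)
        + 2 * (c 0 * w0 + c 1 * w1 + c 2 * w2)
          * (wedge4 (e 0) D * w0 + wedge4 (e 1) D * w1 + wedge4 (e 2) D * w2)
        + (c 0 * w0 + c 1 * w1 + c 2 * w2) ^ 2 * wedge4 D D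
      = lam * (w0 ^ 2 + w1 ^ 2 + w2 ^ 2)
        + 2 * 1 * (c 0 * w0 + c 1 * w1 + c 2 * w2)
          * (wedge4 (e 0) D * w0 + wedge4 (e 1) D * w1 + wedge4 (e 2) D * w2)
        + 1 ^ 2 * (c 0 * w0 + c 1 * w1 + c 2 * w2) ^ 2 * wedge4 D D := by ring
  rw [e1]
  exact h

/-- The sign function `lam + Σ c i * (e i ∧ dβ)` is positive everywhere. -/
theorem sign_pos (e : Fin 3 → (Fin 4 → ℝ) [⋀^Fin 2]→L[ℝ] ℝ) (lam : ℝ) (hlam : 0 < lam)
    (he : ∀ i j, wedge4 (e i) (e j) = if i = j then lam else 0)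
    (c : Fin 3 → ℝ) (β : (Fin 4 → ℝ) → (Fin 4 → ℝ) [⋀^Fin 1]→L[ℝ] ℝ) (hβ : ContDiff ℝ ∞ β)
    (hper : ∀ i x, β (x + Pi.single i 1) = β x)
    (hpd : ∀ x, (Matrix.of fun i j =>
      wedge4 (e i + c i • extDeriv β x) (e j + c j • extDeriv β x)).PosDef) (x : Fin 4 → ℝ) :
    0 < lam + (c 0 * wedge4 (e 0) (extDeriv β x) + c 1 * wedge4 (e 1) (extDeriv β x)
      + c 2 * wedge4 (e 2) (extDeriv β x)) := by
  set C : (Fin 4 → ℝ) [⋀^Fin 2]→L[ℝ] ℝ := c 0 • e 0 + c 1 • e 1 + c 2 • e 2 with hC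
  have hCw : ∀ y, wedge4 C (extDeriv β y) = c 0 * wedge4 (e 0) (extDeriv β y)
      + c 1 * wedge4 (e 1) (extDeriv β y) + c 2 * wedge4 (e 2) (extDeriv β y) := by
    intro y
    rw [hC, wedge4_add_left, wedge4_add_left, wedge4_smul_left, wedge4_smul_left, wedge4_smul_left]
  rw [← hCw]
  set f : (Fin 4 → ℝ) → ℝ := fun y => lam + wedge4 C (extDeriv β y) with hf
  have hfc : Continuous f :=
    continuous_const.add ((continuous_wedge4_right C).comp (contDiff_extDeriv β hβ).continuous)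
  have hT : ∀ y, lam * wedge4 (extDeriv β y) (extDeriv β y)
      ≤ wedge4 (e 0) (extDeriv β y) ^ 2 + wedge4 (e 1) (extDeriv β y) ^ 2
        + wedge4 (e 2) (extDeriv β y) ^ 2 := by
    intro y
    have := wedge4_signature e lam hlam he (extDeriv β y)
    rwa [Fin.sum_univ_three] at this
  have hne : ∀ y, f y ≠ 0 := by
    intro y
    have := rankOne_ne lam (wedge4 (extDeriv β y) (extDeriv β y)) (c 0) (c 1) (c 2)
      (wedge4 (e 0) (extDeriv β y)) (wedge4 (e 1) (extDeriv β y)) (wedge4 (e 2) (extDeriv β y))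
      hlam (fun w0 w1 w2 hw => pd_coord e lam he c (extDeriv β y) (hpd y) w0 w1 w2 hw) (hT y)
    rw [hf]
    simp only
    rw [hCw]
    exact this
  have hint : ∫ y in Icc (0 : Fin 4 → ℝ) 1, wedge4 C (extDeriv β y) = 0 :=
    integral_wedge4_extDeriv C β hβ hper
  by_contra hcon
  rw [not_lt] at hcon
  have hneg : ∀ y, f y < 0 := by
    intro y
    by_contra hy
    rw [not_lt] at hy
    have : (0 : ℝ) ∈ range f := mem_range_of_exists_le_of_exists_ge hfc ⟨x, hcon⟩ ⟨y, hy⟩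
    obtain ⟨z, hz⟩ := this
    exact hne z hz
  have hci : IntegrableOn (fun y => wedge4 C (extDeriv β y)) (Icc (0 : Fin 4 → ℝ) 1) :=
    ((continuous_wedge4_right C).comp
      (contDiff_extDeriv β hβ).continuous).continuousOn.integrableOn_compact isCompact_Icc
  have hle : ∫ y in Icc (0 : Fin 4 → ℝ) 1, wedge4 C (extDeriv β y)
      ≤ ∫ _y in Icc (0 : Fin 4 → ℝ) 1, (-lam) := by
    apply setIntegral_mono_on hci
      ((continuous_const).continuousOn.integrableOn_compact isCompact_Icc) measurableSet_Icc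
    intro y _
    have := hneg y
    rw [hf] at this
    simp only at this
    linarith
  rw [hint, setIntegral_const] at hle
  have hvol : (volume : Measure (Fin 4 → ℝ)).real (Icc (0 : Fin 4 → ℝ) 1) = 1 := by
    rw [Measure.real, Real.volume_Icc_pi_toReal (by intro i; simp)]
    simp
  rw [hvol] at hle
  simp at hle
  linarith

/-- Rank-one perturbations of a flat hyperkaehler triple on the four-torus: the linear path
is a hypersymplectic deformation to the flat triple. -/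
theorem rankOne_flat_torus (e : Fin 3 → (Fin 4 → ℝ) [⋀^Fin 2]→L[ℝ] ℝ) (lam : ℝ)
    (c : Fin 3 → ℝ) (β : (Fin 4 → ℝ) → (Fin 4 → ℝ) [⋀^Fin 1]→L[ℝ] ℝ)
    (hlam : 0 < lam)
    (he : ∀ i j, wedge4 (e i) (e j) = if i = j then lam else 0)
    (hβ : ContDiff ℝ ∞ β)
    (hper : ∀ i x, β (x + Pi.single i 1) = β x)
    (hpd : ∀ x, (Matrix.of fun i j =>
      wedge4 (e i + c i • extDeriv β x) (e j + c j • extDeriv β x)).PosDef) :
    ∃ Ω : ℝ → Fin 3 → (Fin 4 → ℝ) → (Fin 4 → ℝ) [⋀^Fin 2]→L[ℝ] ℝ,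
      (∀ i, ContDiff ℝ ∞ fun p : ℝ × (Fin 4 → ℝ) => Ω p.1 i p.2) ∧
      (∀ t i j x, Ω t i (x + Pi.single j 1) = Ω t i x) ∧
      (∀ t i, extDeriv (Ω t i) = 0) ∧
      (∀ t ∈ Icc (0 : ℝ) 1, ∀ x, (Matrix.of fun i j => wedge4 (Ω t i x) (Ω t j x)).PosDef) ∧
      (∀ i x, Ω 0 i x = e i + c i • extDeriv β x) ∧
      (∀ t i, ∃ α : (Fin 4 → ℝ) → (Fin 4 → ℝ) [⋀^Fin 1]→L[ℝ] ℝ, ContDiff ℝ ∞ α ∧
        (∀ j x, α (x + Pi.single j 1) = α x) ∧ ∀ x, Ω t i x - Ω 0 i x = extDeriv α x) ∧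
      (∃ mu : (Fin 4 → ℝ) → ℝ, (∀ x, 0 < mu x) ∧
        ∀ x i j, wedge4 (Ω 1 i x) (Ω 1 j x) = if i = j then mu x else 0) := by
  have hβd : ∀ x, DifferentiableAt ℝ β x := fun x => hβ.differentiable (by simp) x
  have hdβ : ContDiff ℝ ∞ (extDeriv β) := contDiff_extDeriv β hβ
  refine ⟨fun t i x => e i + ((1 - t) * c i) • extDeriv β x, ?_, ?_, ?_, ?_, ?_, ?_, ?_⟩
  · intro i
    apply contDiff_const.add
    exact ContDiff.smul (f := fun p : ℝ × (Fin 4 → ℝ) => (1 - p.1) * c i)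
      (g := fun p : ℝ × (Fin 4 → ℝ) => extDeriv β p.2)
      ((contDiff_const.sub contDiff_fst).mul contDiff_const) (hdβ.comp contDiff_snd)
  · intro t i j x
    simp only
    rw [extDeriv_periodic β _ (hper j)]
  · intro t i
    funext x
    have h1 : (fun x => e i + ((1 - t) * c i) • extDeriv β x)
        = (fun _ : Fin 4 → ℝ => e i) + ((1 - t) * c i) • extDeriv β := rfl
    have hd1 : DifferentiableAt ℝ (fun _ : Fin 4 → ℝ => e i) x := differentiableAt_const _
    have hd2 : DifferentiableAt ℝ (extDeriv β) x := hdβ.differentiable (by simp) x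
    have hd3 : DifferentiableAt ℝ (((1 - t) * c i) • extDeriv β) x :=
      hd2.const_smul _
    show extDeriv (fun x => e i + ((1 - t) * c i) • extDeriv β x) x = 0
    rw [h1, extDeriv_add hd1 hd3, extDeriv_const]
    rw [extDeriv_smul, extDeriv_extDeriv hβ
      (by simp only [minSmoothness_of_isRCLikeNormedField]; exact WithTop.coe_le_coe.2 le_top)]
    simp
  · intro t ht x
    obtain ⟨ht0, ht1⟩ := ht
    apply Matrix.PosDef.of_dotProduct_mulVec_pos
    · ext i j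
      simp only [Matrix.conjTranspose_apply, Matrix.of_apply, star_trivial]
      exact wedge4_comm _ _
    · intro v hv
      rw [quad_eq e lam he c (extDeriv β x) (1 - t) v]
      have hv' : v 0 ≠ 0 ∨ v 1 ≠ 0 ∨ v 2 ≠ 0 := by
        by_contra hcon
        rw [not_or, not_or, not_not, not_not, not_not] at hcon
        apply hv
        ext i
        fin_cases i
        · exact hcon.1
        · exact hcon.2.1
        · exact hcon.2.2
      have hT : lam * wedge4 (extDeriv β x) (extDeriv β x)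
          ≤ wedge4 (e 0) (extDeriv β x) ^ 2 + wedge4 (e 1) (extDeriv β x) ^ 2
            + wedge4 (e 2) (extDeriv β x) ^ 2 := by
        have := wedge4_signature e lam hlam he (extDeriv β x)
        rwa [Fin.sum_univ_three] at this
      exact rankOne_core lam (wedge4 (extDeriv β x) (extDeriv β x)) (c 0) (c 1) (c 2)
        (wedge4 (e 0) (extDeriv β x)) (wedge4 (e 1) (extDeriv β x))
        (wedge4 (e 2) (extDeriv β x)) hlam
        (fun w0 w1 w2 hw => pd_coord e lam he c (extDeriv β x) (hpd x) w0 w1 w2 hw) hT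
        (sign_pos e lam hlam he c β hβ hper hpd x) (1 - t) (by linarith) (by linarith)
        (v 0) (v 1) (v 2) hv'
  · intro i x
    simp
  · intro t i
    refine ⟨fun x => ((-t) * c i) • β x, ?_, ?_, ?_⟩
    · exact ContDiff.smul (f := fun _ : Fin 4 → ℝ => (-t) * c i) (g := β) contDiff_const hβ
    · intro j x
      simp only
      rw [hper]
    · intro x
      have h2 : (fun x => ((-t) * c i) • β x) = ((-t) * c i) • β := rfl
      rw [h2, extDeriv_smul]
      simp only [sub_zero, one_mul]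
      module
  · refine ⟨fun _ => lam, fun _ => hlam, ?_⟩
    intro x i j
    simp only [sub_self, zero_mul, zero_smul, add_zero]
    exact he i j

/-- The main result in terms of the named predicates. -/
theorem rankOne_deformation (e : Fin 3 → (Fin 4 → ℝ) [⋀^Fin 2]→L[ℝ] ℝ) (lam : ℝ)
    (c : Fin 3 → ℝ) (β : (Fin 4 → ℝ) → (Fin 4 → ℝ) [⋀^Fin 1]→L[ℝ] ℝ)
    (hlam : 0 < lam)
    (he : ∀ i j, wedge4 (e i) (e j) = if i = j then lam else 0)
    (hβ : ContDiff ℝ ∞ β) (hper : Periodic4 β)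
    (hw : IsHypersymplectic (rankOnePert e c β)) :
    HasHyperkahlerDeformation (rankOnePert e c β) := by
  obtain ⟨Ω, h1, h2, h3, h4, h5, h6, h7⟩ :=
    rankOne_flat_torus e lam c β hlam he hβ hper hw.2
  have hcl : ∀ t i, IsClosedTorusForm (Ω t i) := by
    intro t i
    refine ⟨?_, fun j x => h2 t i j x, h3 t i⟩
    exact (h1 i).comp (contDiff_const.prodMk contDiff_id)
  refine ⟨Ω, h1, ?_, ?_, ?_⟩
  · intro t ht
    refine ⟨⟨hcl t, h4 t ht⟩, ?_⟩
    intro i
    obtain ⟨α, ha1, ha2, ha3⟩ := h6 t i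
    refine ⟨α, ha1, ha2, ?_⟩
    intro x
    rw [← ha3 x, h5 i x]
    rfl
  · funext i x
    exact h5 i x
  · exact ⟨hcl 1, h7⟩

end Vale.Agent.H66
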