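import Mathlib
import Vale.Agent.H66.T4Forms
import Vale.Agent.H66.T4Integral
import Vale.Agent.H66.T4Exact
import Vale.Agent.H66.T4Defs
import Vale.Agent.H66.T4Main

/-!
# Triangular hypersymplectic triples on the four-torus

Pointwise linear algebra (an exchange lemma for positive triples of two-forms) and the
sign lemma used for the staged deformation of triangular triples.
-/

namespace Vale.Agent.H66

open Set MeasureTheory
open scoped ContDiff

/-- The quadratic form of the Gram matrix of a triple of two-forms. -/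
theorem gram_quad (ψ : Fin 3 → (Fin 4 → ℝ) [⋀^Fin 2]→L[ℝ] ℝ) (v : Fin 3 → ℝ) :
    star v ⬝ᵥ (Matrix.mulVec (Matrix.of fun i j => wedge4 (ψ i) (ψ j)) v)
      = wedge4 (∑ i, v i • ψ i) (∑ i, v i • ψ i) := by
  simp only [dotProduct, Matrix.mulVec, Fin.sum_univ_three, Matrix.of_apply, star_trivial,
    Pi.star_apply, wedge4_add_left, wedge4_add_right, wedge4_smul_left, wedge4_smul_right]
  ring

theorem gram_posDef_of_pos (ψ : Fin 3 → (Fin 4 → ℝ) [⋀^Fin 2]→L[ℝ] ℝ)
    (h : ∀ v : Fin 3 → ℝ, v ≠ 0 → 0 < wedge4 (∑ i, v i • ψ i) (∑ i, v i • ψ i)) :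
    (Matrix.of fun i j => wedge4 (ψ i) (ψ j)).PosDef := by
  apply Matrix.PosDef.of_dotProduct_mulVec_pos
  · ext i j
    simp only [Matrix.conjTranspose_apply, Matrix.of_apply, star_trivial]
    exact wedge4_comm _ _
  · intro v hv
    rw [gram_quad]
    exact h v hv

theorem gram_pos_of_posDef (ψ : Fin 3 → (Fin 4 → ℝ) [⋀^Fin 2]→L[ℝ] ℝ)
    (hpd : (Matrix.of fun i j => wedge4 (ψ i) (ψ j)).PosDef) (v : Fin 3 → ℝ) (hv : v ≠ 0) :
    0 < wedge4 (∑ i, v i • ψ i) (∑ i, v i • ψ i) := by
  have h := hpd.dotProduct_mulVec_pos hv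
  rwa [gram_quad] at h

theorem wedge4_zero_left (b : (Fin 4 → ℝ) [⋀^Fin 2]→L[ℝ] ℝ) : wedge4 0 b = 0 := by
  unfold wedge4; simp

/-- A two-form of positive square that is wedge-orthogonal to two members of a positive
triple is not wedge-orthogonal to the third one (the wedge pairing has signature three plus three). -/
theorem wedge4_ne_zero_of_posDef (ψ : Fin 3 → (Fin 4 → ℝ) [⋀^Fin 2]→L[ℝ] ℝ)
    (hpd : (Matrix.of fun i j => wedge4 (ψ i) (ψ j)).PosDef)
    (C : (Fin 4 → ℝ) [⋀^Fin 2]→L[ℝ] ℝ) (hC : 0 < wedge4 C C)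
    (k : Fin 3) (horth : ∀ i, i ≠ k → wedge4 (ψ i) C = 0) : wedge4 (ψ k) C ≠ 0 := by
  intro hk
  have hall : ∀ i, wedge4 (ψ i) C = 0 := by
    intro i
    by_cases h : i = k
    · rw [h]; exact hk
    · exact horth i h
  let w : Fin 4 → (Fin 4 → ℝ) [⋀^Fin 2]→L[ℝ] ℝ := ![ψ 0, ψ 1, ψ 2, C]
  let M : (Fin 4 → ℝ) →ₗ[ℝ] ((Fin 4 → ℝ) [⋀^Fin 2]→L[ℝ] ℝ) :=
    ∑ i : Fin 4, (LinearMap.proj i : (Fin 4 → ℝ) →ₗ[ℝ] ℝ).smulRight (w i)
  have hker : LinearMap.ker (sdPart.comp M) ≠ ⊥ := by
    apply LinearMap.ker_ne_bot_of_finrank_lt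
    simp
  obtain ⟨t, ht, ht0⟩ := (Submodule.ne_bot_iff _).1 hker
  have hMt : M t = (∑ i : Fin 3, (![t 0, t 1, t 2] : Fin 3 → ℝ) i • ψ i) + t 3 • C := by
    simp [M, w, Fin.sum_univ_four, Fin.sum_univ_three]
  have hsd : sdPart (M t) = 0 := by
    simpa using ht
  have hle := wedge4_self_nonpos_of_sdPart_eq_zero (M t) hsd
  have hXC : wedge4 (∑ i : Fin 3, (![t 0, t 1, t 2] : Fin 3 → ℝ) i • ψ i) C = 0 := by
    rw [wedge4_sum_left]
    simp only [wedge4_smul_left, hall, mul_zero, Finset.sum_const_zero]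
  have hval : wedge4 (M t) (M t)
      = wedge4 (∑ i : Fin 3, (![t 0, t 1, t 2] : Fin 3 → ℝ) i • ψ i)
          (∑ i : Fin 3, (![t 0, t 1, t 2] : Fin 3 → ℝ) i • ψ i) + t 3 ^ 2 * wedge4 C C := by
    rw [hMt, wedge4_add_left, wedge4_add_right, wedge4_add_right, wedge4_smul_left,
      wedge4_smul_right, wedge4_smul_right, wedge4_smul_left, hXC,
      wedge4_comm C (∑ i : Fin 3, (![t 0, t 1, t 2] : Fin 3 → ℝ) i • ψ i), hXC]
    ring
  rw [hval] at hle
  by_cases hv : (![t 0, t 1, t 2] : Fin 3 → ℝ) = 0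
  · have h0 : t 0 = 0 := by simpa using congrFun hv 0
    have h1 : t 1 = 0 := by simpa using congrFun hv 1
    have h2 : t 2 = 0 := by simpa using congrFun hv 2
    have h3 : t 3 ≠ 0 := by
      intro h3
      apply ht0
      ext i
      fin_cases i <;> simp [h0, h1, h2, h3]
    have hp : 0 < t 3 ^ 2 * wedge4 C C := by positivity
    rw [hv] at hle
    simp only [Pi.zero_apply, zero_smul, Finset.sum_const_zero, wedge4_zero_left] at hle
    linarith
  · have hp := gram_pos_of_posDef ψ hpd _ hv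
    have hq : 0 ≤ t 3 ^ 2 * wedge4 C C := by positivity
    linarith

/-- Exchange lemma.  If `C` has positive square, is wedge-orthogonal to the members `ψ i`,
`i ≠ k`, of a positive triple and pairs nonnegatively with `ψ k`, then replacing `ψ k` by any
point of the segment from `C` to `ψ k` gives a positive triple. -/
theorem posDef_update_segment (ψ : Fin 3 → (Fin 4 → ℝ) [⋀^Fin 2]→L[ℝ] ℝ) (k : Fin 3)
    (C : (Fin 4 → ℝ) [⋀^Fin 2]→L[ℝ] ℝ) (s : ℝ) (hs0 : 0 ≤ s) (hs1 : s ≤ 1)
    (hC : 0 < wedge4 C C) (horth : ∀ i, i ≠ k → wedge4 (ψ i) C = 0)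
    (hg : 0 ≤ wedge4 (ψ k) C)
    (hpd : (Matrix.of fun i j => wedge4 (ψ i) (ψ j)).PosDef) :
    (Matrix.of fun i j => wedge4 (Function.update ψ k ((1 - s) • C + s • ψ k) i)
      (Function.update ψ k ((1 - s) • C + s • ψ k) j)).PosDef := by
  apply gram_posDef_of_pos
  intro v hv
  have hsum : ∑ i, v i • Function.update ψ k ((1 - s) • C + s • ψ k) i
      = (∑ i, Function.update v k (s * v k) i • ψ i) + ((1 - s) * v k) • C := by
    fin_cases k <;> simp [Fin.sum_univ_three, Function.update] <;> module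
  have hXC : wedge4 (∑ i, Function.update v k (s * v k) i • ψ i) C
      = s * v k * wedge4 (ψ k) C := by
    rw [wedge4_sum_left]
    simp only [wedge4_smul_left]
    rw [Finset.sum_eq_single k]
    · simp
    · intro i _ hik
      rw [horth i hik, mul_zero]
    · intro h
      exact absurd (Finset.mem_univ k) h
  rw [hsum, wedge4_add_left, wedge4_add_right, wedge4_add_right, wedge4_smul_left,
    wedge4_smul_right, wedge4_smul_right, wedge4_smul_left,
    wedge4_comm C (∑ i, Function.update v k (s * v k) i • ψ i), hXC]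
  have h2 : 0 ≤ (1 - s) * s * v k ^ 2 * wedge4 (ψ k) C := by
    have : 0 ≤ (1 - s) * s := mul_nonneg (by linarith) hs0
    positivity
  have h3 : 0 ≤ (1 - s) ^ 2 * v k ^ 2 * wedge4 C C := by positivity
  by_cases hu0 : Function.update v k (s * v k) = 0
  · have hvk : v k ≠ 0 := by
      intro hvk
      apply hv
      ext i
      by_cases hik : i = k
      · rw [hik, hvk]; rfl
      · have := congrFun hu0 i
        rw [Function.update_of_ne hik] at this
        exact this
    have hs : s = 0 := by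
      have := congrFun hu0 k
      rw [Function.update_self] at this
      simp only [Pi.zero_apply, mul_eq_zero] at this
      rcases this with h | h
      · exact h
      · exact absurd h hvk
    subst hs
    rw [hu0]
    simp only [Pi.zero_apply, zero_smul, Finset.sum_const_zero, wedge4_zero_left]
    have : 0 < v k ^ 2 * wedge4 C C := by positivity
    nlinarith
  · have h1 := gram_pos_of_posDef ψ hpd _ hu0
    nlinarith

/-- A continuous nowhere vanishing function `lam + C ∧ dβ` on the torus with `lam > 0` is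
positive, because `C ∧ dβ` has mean zero. -/
theorem pos_of_ne_zero (C : (Fin 4 → ℝ) [⋀^Fin 2]→L[ℝ] ℝ) (lam : ℝ) (hlam : 0 < lam)
    (β : (Fin 4 → ℝ) → (Fin 4 → ℝ) [⋀^Fin 1]→L[ℝ] ℝ) (hβ : ContDiff ℝ ∞ β)
    (hper : ∀ i x, β (x + Pi.single i 1) = β x)
    (hne : ∀ y, lam + wedge4 C (extDeriv β y) ≠ 0) (x : Fin 4 → ℝ) :
    0 < lam + wedge4 C (extDeriv β x) := by
  set f : (Fin 4 → ℝ) → ℝ := fun y => lam + wedge4 C (extDeriv β y) with hf
  have hfc : Continuous f :=
    continuous_const.add ((continuous_wedge4_right C).comp (contDiff_extDeriv β hβ).continuous)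
  have hint : ∫ y in Icc (0 : Fin 4 → ℝ) 1, wedge4 C (extDeriv β y) = 0 :=
    integral_wedge4_extDeriv C β hβ hper
  by_contra hcon
  rw [not_lt] at hcon
  have hneg : ∀ y, f y < 0 := by
    intro y
    by_contra hy
    rw [not_lt] at hy
    have : (0 : ℝ) ∈ range f := mem_range_of_exists_le_of_exists_ge hfc ⟨x, hcon⟩ ⟨y, hy⟩
    obtain ⟨z, hz⟩ := this
    exact hne z hz
  have hci : IntegrableOn (fun y => wedge4 C (extDeriv β y)) (Icc (0 : Fin 4 → ℝ) 1) :=
    ((continuous_wedge4_right C).comp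
      (contDiff_extDeriv β hβ).continuous).continuousOn.integrableOn_compact isCompact_Icc
  have hle : ∫ y in Icc (0 : Fin 4 → ℝ) 1, wedge4 C (extDeriv β y)
      ≤ ∫ _y in Icc (0 : Fin 4 → ℝ) 1, (-lam) := by
    apply setIntegral_mono_on hci
      ((continuous_const).continuousOn.integrableOn_compact isCompact_Icc) measurableSet_Icc
    intro y _
    have := hneg y
    rw [hf] at this
    simp only at this
    linarith
  rw [hint, setIntegral_const] at hle
  have hvol : (volume : Measure (Fin 4 → ℝ)).real (Icc (0 : Fin 4 → ℝ) 1) = 1 := by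
    rw [Measure.real, Real.volume_Icc_pi_toReal (by intro i; simp)]
    simp
  rw [hvol] at hle
  simp at hle
  linarith

end Vale.Agent.H66
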