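import Mathlib
import Vale.Agent.H66.T4Tri

/-!
# Pointwise algebra for accretive triples
-/

namespace Vale.Agent.H66

/-- The segment between two positive triples `ψ`, `φ` with `ψ_v ∧ φ_v ≥ 0` for all `v`
consists of positive triples. -/
theorem posDef_segment_of_accretive (ψ φ : Fin 3 → (Fin 4 → ℝ) [⋀^Fin 2]→L[ℝ] ℝ) (s : ℝ)
    (hs0 : 0 ≤ s) (hs1 : s ≤ 1)
    (hψ : (Matrix.of fun i j => wedge4 (ψ i) (ψ j)).PosDef)
    (hφ : (Matrix.of fun i j => wedge4 (φ i) (φ j)).PosDef)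
    (hacc : ∀ v : Fin 3 → ℝ, 0 ≤ wedge4 (∑ i, v i • ψ i) (∑ i, v i • φ i)) :
    (Matrix.of fun i j =>
      wedge4 ((1 - s) • ψ i + s • φ i) ((1 - s) • ψ j + s • φ j)).PosDef := by
  apply gram_posDef_of_pos (fun i => (1 - s) • ψ i + s • φ i)
  intro v hv
  have h1 := gram_pos_of_posDef ψ hψ v hv
  have h2 := gram_pos_of_posDef φ hφ v hv
  have h3 := hacc v
  have hsum : ∑ i, v i • ((1 - s) • ψ i + s • φ i)
      = (1 - s) • ∑ i, v i • ψ i + s • ∑ i, v i • φ i := by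
    simp only [Fin.sum_univ_three]
    module
  rw [hsum]
  simp only [wedge4_add_left, wedge4_add_right, wedge4_smul_left, wedge4_smul_right]
  rw [wedge4_comm (∑ i, v i • φ i) (∑ i, v i • ψ i)]
  set a := wedge4 (∑ i, v i • ψ i) (∑ i, v i • ψ i)
  set b := wedge4 (∑ i, v i • φ i) (∑ i, v i • φ i)
  set c := wedge4 (∑ i, v i • ψ i) (∑ i, v i • φ i)
  have e : (1 - s) * ((1 - s) * a + s * c) + s * ((1 - s) * c + s * b)
      = (1 - s) ^ 2 * a + 2 * (s * (1 - s) * c) + s ^ 2 * b := by ring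
  rw [e]
  have hc : 0 ≤ s * (1 - s) * c := mul_nonneg (mul_nonneg hs0 (by linarith)) h3
  rcases eq_or_lt_of_le hs1 with h | h
  · rw [h]
    simp only [sub_self, zero_mul, mul_zero, ne_eq, OfNat.ofNat_ne_zero, not_false_eq_true,
      zero_pow, zero_add, one_pow, one_mul]
    exact h2
  · have hp : 0 < (1 - s) ^ 2 * a := mul_pos (pow_pos (by linarith) 2) h1
    have hq : 0 ≤ s ^ 2 * b := mul_nonneg (sq_nonneg s) h2.le
    linarith

/-- A constant invertible linear change of an orthogonal positive triple is a positive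
triple. -/
theorem posDef_mix (φ : Fin 3 → (Fin 4 → ℝ) [⋀^Fin 2]→L[ℝ] ℝ) (m : ℝ) (hm : 0 < m)
    (hφ : ∀ i j, wedge4 (φ i) (φ j) = if i = j then m else 0)
    (K : Matrix (Fin 3) (Fin 3) ℝ) (hK : K.det ≠ 0) :
    (Matrix.of fun i j => wedge4 (∑ k, K i k • φ k) (∑ k, K j k • φ k)).PosDef := by
  apply gram_posDef_of_pos (fun i => ∑ k, K i k • φ k)
  intro v hv
  have hu : Matrix.vecMul v K ≠ 0 := fun h => hv (Matrix.eq_zero_of_vecMul_eq_zero hK h)
  have hsum : ∑ i, v i • ∑ k, K i k • φ k = ∑ k, (Matrix.vecMul v K) k • φ k := by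
    simp only [Fin.sum_univ_three, Matrix.vecMul, dotProduct]
    module
  rw [hsum]
  set u := Matrix.vecMul v K
  have hexp : wedge4 (∑ k, u k • φ k) (∑ k, u k • φ k) = m * (u 0 ^ 2 + u 1 ^ 2 + u 2 ^ 2) := by
    simp only [Fin.sum_univ_three, wedge4_add_left, wedge4_add_right, wedge4_smul_left,
      wedge4_smul_right, hφ]
    simp
    ring
  rw [hexp]
  apply mul_pos hm
  by_contra hcon
  rw [not_lt] at hcon
  apply hu
  have h0 : u 0 = 0 := by nlinarith [sq_nonneg (u 0), sq_nonneg (u 1), sq_nonneg (u 2)]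
  have h1 : u 1 = 0 := by nlinarith [sq_nonneg (u 0), sq_nonneg (u 1), sq_nonneg (u 2)]
  have h2 : u 2 = 0 := by nlinarith [sq_nonneg (u 0), sq_nonneg (u 1), sq_nonneg (u 2)]
  funext i
  fin_cases i
  · exact h0
  · exact h1
  · exact h2

/-- A constant invertible linear change of a positive triple is a positive triple. -/
theorem posDef_of_mul (Ξ : Fin 3 → (Fin 4 → ℝ) [⋀^Fin 2]→L[ℝ] ℝ)
    (hΞ : (Matrix.of fun i j => wedge4 (Ξ i) (Ξ j)).PosDef)
    (N M : Matrix (Fin 3) (Fin 3) ℝ) (hNM : N * M = 1) :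
    (Matrix.of fun i j => wedge4 (∑ k, N i k • Ξ k) (∑ k, N j k • Ξ k)).PosDef := by
  apply gram_posDef_of_pos (fun i => ∑ k, N i k • Ξ k)
  intro v hv
  have hu : Matrix.vecMul v N ≠ 0 := by
    intro h
    apply hv
    have h2 : Matrix.vecMul (Matrix.vecMul v N) M = v := by
      rw [Matrix.vecMul_vecMul, hNM, Matrix.vecMul_one]
    rw [← h2, h, Matrix.zero_vecMul]
  have hsum : ∑ i, v i • ∑ k, N i k • Ξ k = ∑ k, (Matrix.vecMul v N) k • Ξ k := by
    simp only [Fin.sum_univ_three, Matrix.vecMul, dotProduct]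
    module
  rw [hsum]
  exact gram_pos_of_posDef Ξ hΞ _ hu

end Vale.Agent.H66
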