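import Mathlib
import Vale.Agent.H66.T4Forms
import Vale.Agent.H66.T4Integral
import Vale.Agent.H66.T4Exact
import Vale.Agent.H66.T4Defs

/-!
# Integration by parts on the four-torus: closed wedge exact integrates to zero

TASK IBP (stub).  Sketch.  Put `a k l x` := the entries of the antisymmetric matrix
  [[0, t23, -t13, t12], [-t23, 0, t03, -t02], [t13, -t03, 0, t01], [-t12, t02, -t01, 0]]
with `tab x = θ x ![Pi.single a 1, Pi.single b 1]`, and `b l x = β x ![Pi.single l 1]`,
`G k l x = fderiv ℝ (b l) x (Pi.single k 1)`.  As in `integral_wedge4_extDeriv` (file T4Exact,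
the case of a constant `θ`; copy its structure) one has
  `wedge4 (θ x) (extDeriv β x) = ∑ k, ∑ l, a k l x * G k l x`.
By the product rule
  `fderiv ℝ (fun y => a k l y * b l y) x (Pi.single k 1)
     = fderiv ℝ (a k l) x (Pi.single k 1) * b l x + a k l x * G k l x`,
the left side integrates to zero over the unit cube (`integral_partial_deriv_periodic`, the
product is periodic and smooth), and for every `l` the sum over `k` of
`fderiv ℝ (a k l) x (Pi.single k 1)` vanishes: it is, up to sign, the value of `extDeriv θ x`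
on the three basis vectors other than `Pi.single l 1`
(`extDeriv_apply`: `extDeriv θ x ![u, v, w]
   = fderiv ℝ θ x u ![v, w] - fderiv ℝ θ x v ![u, w] + fderiv ℝ θ x w ![u, v]`, and
`fderiv ℝ θ x u ![v, w] = fderiv ℝ (fun y => θ y ![v, w]) x u`), which is zero because `θ` is
closed.
-/

namespace Vale.Agent.H66

open Set MeasureTheory
open scoped ContDiff

/-- The exterior derivative of a two-form on three vectors, in terms of directional
derivatives of its coefficients. -/
theorem ibp_extDeriv_two_apply (θ : (Fin 4 → ℝ) → (Fin 4 → ℝ) [⋀^Fin 2]→L[ℝ] ℝ)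
    (x : Fin 4 → ℝ) (hθ : DifferentiableAt ℝ θ x) (u v w : Fin 4 → ℝ) :
    extDeriv θ x ![u, v, w] = fderiv ℝ (fun y => θ y ![v, w]) x u
      - fderiv ℝ (fun y => θ y ![u, w]) x v + fderiv ℝ (fun y => θ y ![u, v]) x w := by
  rw [extDeriv_apply hθ]
  have h0 : Fin.removeNth (0 : Fin 3) ![u, v, w] = ![v, w] := by
    ext i j; fin_cases i <;> simp [Fin.removeNth]
  have h1 : Fin.removeNth (1 : Fin 3) ![u, v, w] = ![u, w] := by
    ext i j; fin_cases i <;> simp [Fin.removeNth]
  have h2 : Fin.removeNth (2 : Fin 3) ![u, v, w] = ![u, v] := by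
    have e : Fin.succAbove (2 : Fin 3) (1 : Fin 2) = 1 := by decide
    ext i j; fin_cases i <;> simp [Fin.removeNth, e]
  rw [Fin.sum_univ_three, h0, h1, h2]
  simp
  ring

/-- The wedge of a closed periodic two-form with an exact periodic two-form integrates to zero
over the fundamental domain of the torus. -/
theorem integral_wedge4_closed_extDeriv
    (θ : (Fin 4 → ℝ) → (Fin 4 → ℝ) [⋀^Fin 2]→L[ℝ] ℝ) (hθ : IsClosedTorusForm θ)
    (β : (Fin 4 → ℝ) → (Fin 4 → ℝ) [⋀^Fin 1]→L[ℝ] ℝ) (hβ : ContDiff ℝ ∞ β)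
    (hper : Periodic4 β) :
    ∫ x in Icc (0 : Fin 4 → ℝ) 1, wedge4 (θ x) (extDeriv β x) = 0 := by
  obtain ⟨hθs, hθp, hθc⟩ := hθ
  set G : Fin 4 → Fin 4 → (Fin 4 → ℝ) → ℝ := fun k l x =>
    fderiv ℝ (fun y => β y ![Pi.single l 1]) x (Pi.single k 1) with hG
  have hg : ∀ l : Fin 4, ContDiff ℝ 1 (fun y => β y ![Pi.single l (1 : ℝ)]) := fun l =>
    ((ContinuousAlternatingMap.apply ℝ (Fin 4 → ℝ) ℝ ![Pi.single l 1]).contDiff.comp hβ).of_le
      (by simp)
  have ht : ∀ p q : Fin 4,
      ContDiff ℝ 1 (fun y => θ y ![Pi.single p (1 : ℝ), Pi.single q 1]) := fun p q =>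
    ((ContinuousAlternatingMap.apply ℝ (Fin 4 → ℝ) ℝ
      ![Pi.single p 1, Pi.single q 1]).contDiff.comp hθs).of_le (by simp)
  have hD : ∀ x (k l : Fin 4),
      extDeriv β x ![Pi.single k 1, Pi.single l 1] = G k l x - G l k x := by
    intro x k l
    rw [extDeriv_one_apply β x (hβ.differentiable (by simp) x)]
  set s : Fin 4 → Fin 4 → ℝ := fun k l =>
    (!![0, 1, -1, 1; -1, 0, 1, -1; 1, -1, 0, 1; -1, 1, -1, 0] :
      Matrix (Fin 4) (Fin 4) ℝ) k l with hs
  set p : Fin 4 → Fin 4 → Fin 4 := fun k l =>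
    (!![0, 2, 1, 1; 2, 0, 0, 0; 1, 0, 0, 0; 1, 0, 0, 0] :
      Matrix (Fin 4) (Fin 4) (Fin 4)) k l with hp
  set q : Fin 4 → Fin 4 → Fin 4 := fun k l =>
    (!![0, 3, 3, 2; 3, 0, 3, 2; 3, 3, 0, 1; 2, 2, 1, 0] :
      Matrix (Fin 4) (Fin 4) (Fin 4)) k l with hq
  set a : Fin 4 → Fin 4 → (Fin 4 → ℝ) → ℝ := fun k l x =>
    s k l * θ x ![Pi.single (p k l) 1, Pi.single (q k l) 1] with ha
  have hform : ∀ x, wedge4 (θ x) (extDeriv β x) = ∑ k, ∑ l, a k l x * G k l x := by
    intro x
    unfold wedge4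
    simp only [hD, ha, hs, hp, hq, Fin.sum_univ_four]
    simp
    ring
  have hacd : ∀ k l, ContDiff ℝ 1 (a k l) := fun k l => contDiff_const.mul (ht _ _)
  set P : Fin 4 → Fin 4 → (Fin 4 → ℝ) → ℝ := fun k l x =>
    fderiv ℝ (fun y => a k l y * β y ![Pi.single l 1]) x (Pi.single k 1) with hP
  have hPint : ∀ k l, ∫ x in Icc (0 : Fin 4 → ℝ) 1, P k l x = 0 := fun k l =>
    integral_partial_deriv_periodic _ ((hacd k l).mul (hg l))
      (fun i x => by simp only [ha]; rw [hθp, hper]) k
  have hPcont : ∀ k l, Continuous (P k l) := fun k l =>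
    (((hacd k l).mul (hg l)).continuous_fderiv one_ne_zero).clm_apply continuous_const
  have hPi : ∀ k l, IntegrableOn (P k l) (Icc (0 : Fin 4 → ℝ) 1) := fun k l =>
    (hPcont k l).continuousOn.integrableOn_compact isCompact_Icc
  have hprod : ∀ k l x, P k l x = a k l x * G k l x
      + β x ![Pi.single l 1] * fderiv ℝ (a k l) x (Pi.single k 1) := by
    intro k l x
    simp only [hP, hG]
    rw [fderiv_fun_mul ((hacd k l).differentiable one_ne_zero x)
      ((hg l).differentiable one_ne_zero x)]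
    simp
  have hcol : ∀ l x, ∑ k, fderiv ℝ (a k l) x (Pi.single k 1) = 0 := by
    intro l x
    set T : Fin 4 → Fin 4 → Fin 4 → ℝ := fun p' q' k =>
      fderiv ℝ (fun y => θ y ![Pi.single p' 1, Pi.single q' 1]) x (Pi.single k 1) with hT
    have hDa : ∀ k, fderiv ℝ (a k l) x (Pi.single k 1) = s k l * T (p k l) (q k l) k := by
      intro k
      simp only [ha, hT]
      rw [fderiv_const_mul ((ht _ _).differentiable one_ne_zero x)]
      simp
    have hdiff : DifferentiableAt ℝ θ x := hθs.differentiable (by simp) x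
    have hc : ∀ u v w : Fin 4, T v w u - T u w v + T u v w = 0 := by
      intro u v w
      have h3 := ibp_extDeriv_two_apply θ x hdiff (Pi.single u 1) (Pi.single v 1)
        (Pi.single w 1)
      rw [hθc] at h3
      simp only [hT]
      rw [← h3]
      rfl
    have c0 := hc 1 2 3
    have c1 := hc 0 2 3
    have c2 := hc 0 1 3
    have c3 := hc 0 1 2
    simp only [hDa, Fin.sum_univ_four]
    fin_cases l <;> simp [hs, hp, hq] <;> linarith
  have hpt : ∀ x, wedge4 (θ x) (extDeriv β x) = ∑ k, ∑ l, P k l x := by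
    intro x
    rw [hform]
    have e1 : ∑ k, ∑ l, P k l x = ∑ k, ∑ l, a k l x * G k l x
        + ∑ l, β x ![Pi.single l 1] * ∑ k, fderiv ℝ (a k l) x (Pi.single k 1) := by
      simp only [hprod, Finset.sum_add_distrib]
      congr 1
      rw [Finset.sum_comm]
      simp only [Finset.mul_sum]
    rw [e1]
    simp [hcol]
  simp only [hpt]
  rw [integral_finsetSum]
  · apply Finset.sum_eq_zero
    intro k _
    rw [integral_finsetSum]
    · apply Finset.sum_eq_zero
      intro l _
      exact hPint k l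
    · intro l _
      exact hPi k l
  · intro k _
    apply integrable_finsetSum
    intro l _
    exact hPi k l

end Vale.Agent.H66
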