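import Mathlib
import Vale.Agent.H66.T4Forms
import Vale.Agent.H66.T4Integral
import Vale.Agent.H66.T4Exact
import Vale.Agent.H66.T4Defs
import Vale.Agent.H66.T4IBP

/-!
# The sign lemma for a closed target form on the four-torus

* `continuous_wedge4_comp`: the wedge coefficient of two continuous families of two-forms is a
  polynomial in twelve continuous functions (evaluation at a fixed tuple of vectors).
* `integral_pos_of_continuous_pos`: a continuous positive function has a positive minimum on
  the compact unit cube, which has volume one.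
* `pos_of_ne_zero_closed`: intermediate value theorem and the vanishing of the integral of
  the wedge of a closed torus form with an exact one (file T4IBP).
-/

namespace Vale.Agent.H66

open Set MeasureTheory
open scoped ContDiff

/-- Evaluation of a continuous family of two-forms at a fixed pair of vectors is continuous. -/
theorem sign_eval_continuous {X : Type*} [TopologicalSpace X]
    (a : X → (Fin 4 → ℝ) [⋀^Fin 2]→L[ℝ] ℝ) (ha : Continuous a) (v : Fin 2 → (Fin 4 → ℝ)) :
    Continuous fun x => a x v :=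
  (ContinuousAlternatingMap.apply ℝ (Fin 4 → ℝ) ℝ v).continuous.comp ha

/-- The wedge coefficient of two continuous families of two-forms is continuous. -/
theorem continuous_wedge4_comp {X : Type*} [TopologicalSpace X]
    (a b : X → (Fin 4 → ℝ) [⋀^Fin 2]→L[ℝ] ℝ) (ha : Continuous a) (hb : Continuous b) :
    Continuous fun x => wedge4 (a x) (b x) := by
  unfold wedge4
  exact ((((((sign_eval_continuous a ha _).mul (sign_eval_continuous b hb _)).sub
    ((sign_eval_continuous a ha _).mul (sign_eval_continuous b hb _))).add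
    ((sign_eval_continuous a ha _).mul (sign_eval_continuous b hb _))).add
    ((sign_eval_continuous a ha _).mul (sign_eval_continuous b hb _))).sub
    ((sign_eval_continuous a ha _).mul (sign_eval_continuous b hb _))).add
    ((sign_eval_continuous a ha _).mul (sign_eval_continuous b hb _))

theorem sign_vol_cube :
    (volume : Measure (Fin 4 → ℝ)).real (Icc (0 : Fin 4 → ℝ) 1) = 1 := by
  rw [Measure.real, Real.volume_Icc_pi_toReal (by intro i; simp)]
  simp

/-- A continuous positive function has positive integral over the unit cube. -/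
theorem integral_pos_of_continuous_pos (f : (Fin 4 → ℝ) → ℝ) (hf : Continuous f)
    (hpos : ∀ x, 0 < f x) : 0 < ∫ x in Icc (0 : Fin 4 → ℝ) 1, f x := by
  have hne : (Icc (0 : Fin 4 → ℝ) 1).Nonempty :=
    nonempty_Icc.mpr (by intro i; simp)
  obtain ⟨x₀, _, hmin⟩ := isCompact_Icc.exists_isMinOn hne hf.continuousOn
  have hle : ∫ _y in Icc (0 : Fin 4 → ℝ) 1, f x₀ ≤ ∫ y in Icc (0 : Fin 4 → ℝ) 1, f y := by
    apply setIntegral_mono_on
      ((continuous_const).continuousOn.integrableOn_compact isCompact_Icc)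
      (hf.continuousOn.integrableOn_compact isCompact_Icc) measurableSet_Icc
    intro y hy
    exact hmin hy
  rw [setIntegral_const, sign_vol_cube] at hle
  simp at hle
  exact lt_of_lt_of_le (hpos x₀) hle

/-- Sign lemma.  If `θ` is a closed two-form on the torus with `θ ∧ θ > 0` and `β` a one-form on
the torus such that `θ ∧ (θ + dβ)` vanishes nowhere, then `θ ∧ (θ + dβ) > 0` everywhere. -/
theorem pos_of_ne_zero_closed (θ : (Fin 4 → ℝ) → (Fin 4 → ℝ) [⋀^Fin 2]→L[ℝ] ℝ)
    (hθ : IsClosedTorusForm θ) (hpos : ∀ x, 0 < wedge4 (θ x) (θ x))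
    (β : (Fin 4 → ℝ) → (Fin 4 → ℝ) [⋀^Fin 1]→L[ℝ] ℝ) (hβ : ContDiff ℝ ∞ β)
    (hper : Periodic4 β)
    (hne : ∀ y, wedge4 (θ y) (θ y) + wedge4 (θ y) (extDeriv β y) ≠ 0) (x : Fin 4 → ℝ) :
    0 < wedge4 (θ x) (θ x) + wedge4 (θ x) (extDeriv β x) := by
  have hθc : Continuous θ := hθ.1.continuous
  have hdc : Continuous (extDeriv β) := (contDiff_extDeriv β hβ).continuous
  have h1c : Continuous fun y => wedge4 (θ y) (θ y) := continuous_wedge4_comp θ θ hθc hθc
  have h2c : Continuous fun y => wedge4 (θ y) (extDeriv β y) :=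
    continuous_wedge4_comp θ (extDeriv β) hθc hdc
  have hfc : Continuous fun y => wedge4 (θ y) (θ y) + wedge4 (θ y) (extDeriv β y) :=
    h1c.add h2c
  have hint : ∫ y in Icc (0 : Fin 4 → ℝ) 1, wedge4 (θ y) (extDeriv β y) = 0 :=
    integral_wedge4_closed_extDeriv θ hθ β hβ hper
  by_contra hcon
  rw [not_lt] at hcon
  have hneg : ∀ y, wedge4 (θ y) (θ y) + wedge4 (θ y) (extDeriv β y) < 0 := by
    intro y
    by_contra hy
    rw [not_lt] at hy
    have : (0 : ℝ) ∈ range fun y => wedge4 (θ y) (θ y) + wedge4 (θ y) (extDeriv β y) :=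
      mem_range_of_exists_le_of_exists_ge hfc ⟨x, hcon⟩ ⟨y, hy⟩
    obtain ⟨z, hz⟩ := this
    exact hne z hz
  have hi1 : IntegrableOn (fun y => wedge4 (θ y) (θ y)) (Icc (0 : Fin 4 → ℝ) 1) :=
    h1c.continuousOn.integrableOn_compact isCompact_Icc
  have hi2 : IntegrableOn (fun y => wedge4 (θ y) (extDeriv β y)) (Icc (0 : Fin 4 → ℝ) 1) :=
    h2c.continuousOn.integrableOn_compact isCompact_Icc
  have hsum : ∫ y in Icc (0 : Fin 4 → ℝ) 1,
        (wedge4 (θ y) (θ y) + wedge4 (θ y) (extDeriv β y))
      = ∫ y in Icc (0 : Fin 4 → ℝ) 1, wedge4 (θ y) (θ y) := by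
    rw [integral_add hi1 hi2, hint, add_zero]
  have hle : ∫ y in Icc (0 : Fin 4 → ℝ) 1,
        (wedge4 (θ y) (θ y) + wedge4 (θ y) (extDeriv β y)) ≤ 0 :=
    setIntegral_nonpos measurableSet_Icc (fun y _ => (hneg y).le)
  have hp := integral_pos_of_continuous_pos (fun y => wedge4 (θ y) (θ y)) h1c hpos
  rw [hsum] at hle
  exact absurd hp (not_lt.mpr hle)

end Vale.Agent.H66
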