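import Mathlib
import Vale.Agent.H66.T4Forms
import Vale.Agent.H66.T4Integral
import Vale.Agent.H66.T4Exact
import Vale.Agent.H66.T4Defs
import Vale.Agent.H66.T4IBP
import Vale.Agent.H66.T4Sign

/-!
# Accretive triples: the constant matrix has nonnegative symmetric part

TASK ACC-INT (stub).  Sketch.  Fix `v`.  Choose `α i` with `w i x = θ i x + extDeriv (α i) x`
(from `hcoh`), and `mu` from `hθ`.  Put `Θ x := ∑ i, v i • ∑ k, K i k • θ k x` (a closed torus
form: smooth, periodic, `extDeriv` is additive and commutes with constant scalars, see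
`extDeriv_add`, `extDeriv_smul` and their use in file T4TriMain) and
`β x := ∑ i, v i • α i x` (smooth, periodic, `extDeriv β x = ∑ i, v i • extDeriv (α i) x`).
Then pointwise, by bilinearity of `wedge4` (`wedge4_add_left`, `wedge4_smul_left`,
`wedge4_sum_left`, `wedge4_comm`; `Fin.sum_univ_three` makes everything explicit) and
`wedge4 (θ i x) (θ k x) = if i = k then mu x else 0`,
  `wedge4 (∑ i, v i • w i x) (Θ x) = (∑ j, ∑ k, v j * K j k * v k) * mu x
      + wedge4 (Θ x) (extDeriv β x)`.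
Integrate over the cube: the left side has integral `≥ 0` by `hacc`
(`setIntegral_nonneg measurableSet_Icc`), the last term has integral zero
(`integral_wedge4_closed_extDeriv`, file T4IBP), and `mu x = wedge4 (θ 0 x) (θ 0 x)` is continuous
and positive, so its integral is positive (`integral_pos_of_continuous_pos`,
`continuous_wedge4_comp`, file T4Sign).  Hence `0 ≤ (∑ j, ∑ k, v j * K j k * v k) * ∫ mu`, and the
claim follows.  (Integrability of continuous functions on the compact cube: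
`Continuous.continuousOn.integrableOn_compact isCompact_Icc`.)
-/

namespace Vale.Agent.H66

open Set MeasureTheory
open scoped ContDiff

/-- The exterior derivative of a finite linear combination of smooth forms. -/
theorem accint_extDeriv_sum {n : ℕ} (c : Fin 3 → ℝ)
    (β : Fin 3 → (Fin 4 → ℝ) → (Fin 4 → ℝ) [⋀^Fin n]→L[ℝ] ℝ)
    (hβ : ∀ k, ContDiff ℝ ∞ (β k)) (x : Fin 4 → ℝ) :
    extDeriv (fun y => ∑ k, c k • β k y) x = ∑ k, c k • extDeriv (β k) x := by
  have hd : ∀ k, DifferentiableAt ℝ (β k) x := fun k => (hβ k).differentiable (by simp) x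
  have h0 : HasFDerivAt (fun y => ∑ k, c k • β k y) (∑ k, c k • fderiv ℝ (β k) x) x :=
    HasFDerivAt.fun_sum (fun k _ => ((hd k).hasFDerivAt).const_smul (c k))
  have h1 : fderiv ℝ (fun y => ∑ k, c k • β k y) x = ∑ k, c k • fderiv ℝ (β k) x := h0.fderiv
  rw [congrFun (extDeriv_eq_clm (fun y => ∑ k, c k • β k y)) x, h1, map_sum]
  apply Finset.sum_congr rfl
  intro k _
  rw [map_smul, congrFun (extDeriv_eq_clm (β k)) x]

/-- A finite linear combination of closed torus forms is a closed torus form. -/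
theorem accint_closed (c : Fin 3 → ℝ)
    (w : Fin 3 → (Fin 4 → ℝ) → (Fin 4 → ℝ) [⋀^Fin 2]→L[ℝ] ℝ)
    (hw : ∀ k, IsClosedTorusForm (w k)) :
    IsClosedTorusForm (fun x => ∑ k, c k • w k x) := by
  refine ⟨?_, ?_, ?_⟩
  · exact ContDiff.sum (fun k _ => ((hw k).1).const_smul (c k))
  · intro j x
    apply Finset.sum_congr rfl
    intro k _
    rw [(hw k).2.1 j x]
  · funext x
    rw [accint_extDeriv_sum c w (fun k => (hw k).1) x]
    apply Finset.sum_eq_zero
    intro k _
    rw [(hw k).2.2]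
    simp

/-- If `w` is cohomologous to the hyperkaehler triple `θ` and `w_v ∧ (K θ)_v ≥ 0` pointwise for
every `v`, then the constant matrix `K` has nonnegative quadratic form. -/
theorem sym_nonneg_of_accretive
    (θ w : Fin 3 → (Fin 4 → ℝ) → (Fin 4 → ℝ) [⋀^Fin 2]→L[ℝ] ℝ)
    (K : Matrix (Fin 3) (Fin 3) ℝ)
    (hθ : IsHyperkahler θ)
    (hcoh : ∀ i, Cohomologous (w i) (θ i))
    (hacc : ∀ (x : Fin 4 → ℝ) (v : Fin 3 → ℝ),
      0 ≤ wedge4 (∑ i, v i • w i x) (∑ i, v i • ∑ k, K i k • θ k x))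
    (v : Fin 3 → ℝ) : 0 ≤ ∑ j, ∑ k, v j * K j k * v k := by
  obtain ⟨hθc, mu, hmupos, hmu⟩ := hθ
  choose α hαs hαp hα using hcoh
  set Θ : (Fin 4 → ℝ) → (Fin 4 → ℝ) [⋀^Fin 2]→L[ℝ] ℝ :=
    fun x => ∑ i, v i • ∑ k, K i k • θ k x with hΘ
  set β : (Fin 4 → ℝ) → (Fin 4 → ℝ) [⋀^Fin 1]→L[ℝ] ℝ := fun x => ∑ i, v i • α i x with hβ
  have hΘc : IsClosedTorusForm Θ :=
    accint_closed v (fun i x => ∑ k, K i k • θ k x) (fun i => accint_closed (K i) θ hθc)
  have hβs : ContDiff ℝ ∞ β := ContDiff.sum (fun k _ => (hαs k).const_smul (v k))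
  have hβp : Periodic4 β := by
    intro j x
    apply Finset.sum_congr rfl
    intro k _
    rw [hαp k j x]
  have hdβ : ∀ x, extDeriv β x = ∑ i, v i • extDeriv (α i) x :=
    fun x => accint_extDeriv_sum v α hαs x
  set c : ℝ := ∑ j, ∑ k, v j * K j k * v k with hc
  have hw : ∀ i x, w i x = θ i x + extDeriv (α i) x := by
    intro i x
    rw [← hα i x]
    abel
  have hpt : ∀ x, wedge4 (∑ i, v i • w i x) (Θ x) = c * mu x + wedge4 (Θ x) (extDeriv β x) := by
    intro x
    have e1 : ∑ i, v i • w i x = ∑ i, v i • θ i x + extDeriv β x := by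
      rw [hdβ x, ← Finset.sum_add_distrib]
      apply Finset.sum_congr rfl
      intro i _
      rw [hw i x, smul_add]
    rw [e1, wedge4_add_left, wedge4_comm (extDeriv β x) (Θ x)]
    congr 1
    simp only [hΘ, hc, Fin.sum_univ_three, wedge4_add_left, wedge4_smul_left, wedge4_add_right,
      wedge4_smul_right, hmu]
    simp
    ring
  have hmucont : Continuous mu := by
    have h1 : mu = fun x => wedge4 (θ 0 x) (θ 0 x) := by
      funext x
      rw [hmu x 0 0, if_pos rfl]
    rw [h1]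
    exact continuous_wedge4_comp (θ 0) (θ 0) (hθc 0).1.continuous (hθc 0).1.continuous
  have hmuint : 0 < ∫ x in Icc (0 : Fin 4 → ℝ) 1, mu x :=
    integral_pos_of_continuous_pos mu hmucont hmupos
  have hcont2 : Continuous fun x => wedge4 (Θ x) (extDeriv β x) :=
    continuous_wedge4_comp Θ (extDeriv β) hΘc.1.continuous (contDiff_extDeriv β hβs).continuous
  have hzero : ∫ x in Icc (0 : Fin 4 → ℝ) 1, wedge4 (Θ x) (extDeriv β x) = 0 :=
    integral_wedge4_closed_extDeriv Θ hΘc β hβs hβp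
  have hnn : 0 ≤ ∫ x in Icc (0 : Fin 4 → ℝ) 1, wedge4 (∑ i, v i • w i x) (Θ x) :=
    setIntegral_nonneg measurableSet_Icc (fun x _ => hacc x v)
  have hi1 : IntegrableOn (fun x => c * mu x) (Icc (0 : Fin 4 → ℝ) 1) :=
    (continuous_const.mul hmucont).continuousOn.integrableOn_compact isCompact_Icc
  have hi2 : IntegrableOn (fun x => wedge4 (Θ x) (extDeriv β x)) (Icc (0 : Fin 4 → ℝ) 1) :=
    hcont2.continuousOn.integrableOn_compact isCompact_Icc
  have hsplit : ∫ x in Icc (0 : Fin 4 → ℝ) 1, wedge4 (∑ i, v i • w i x) (Θ x)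
      = c * ∫ x in Icc (0 : Fin 4 → ℝ) 1, mu x := by
    simp only [hpt]
    rw [integral_add hi1 hi2, hzero, add_zero, integral_const_mul]
  rw [hsplit] at hnn
  by_contra hneg
  rw [not_le] at hneg
  nlinarith

end Vale.Agent.H66
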