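import Mathlib

/-!
# A smooth path of inverse matrices

TASK ACC-INV (stub).  Sketch.  Put `s t := Real.smoothTransition t` (smooth, values in `[0,1]`:
`Real.smoothTransition.contDiff`, `.nonneg`, `.le_one`) and
`M t := (1 - s t) • 1 + s t • K`.
* `det (M t) ≠ 0` for every `t`: otherwise there is `v ≠ 0` with `M t *ᵥ v = 0`
  (`Matrix.exists_mulVec_eq_zero_iff`), so `0 = v ⬝ᵥ M t *ᵥ v
   = (1 - s t) * ∑ j, v j ^ 2 + s t * ∑ j, ∑ k, v j * K j k * v k ≥ (1 - s t) * ∑ j, v j ^ 2`,
  hence `s t = 1`, so `M t = K` and `det K = 0`, contradicting `hK`.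
* Take `N t := (M t)⁻¹`; then `Matrix.nonsing_inv_mul`, `Matrix.mul_nonsing_inv` (with
  `isUnit_iff_ne_zero`) give the two product identities.
* Smoothness of the entries: the inverse of `M t` is `Ring.inverse (det (M t)) • adjugate (M t)` (`Matrix.inv_def`,
  `Ring.inverse_eq_inv'`); with `Matrix.det_fin_three` and `Matrix.adjugate_fin_three` every entry
  is a polynomial in `s t` divided by the nowhere vanishing polynomial `det (M t)` of `s t`
  (`ContDiff.div`/`ContDiff.inv`, `ContDiff.mul`, `ContDiff.add`, ...).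
-/

namespace Vale.Agent.H66

open scoped ContDiff

/-- The determinant of a path of `3 × 3` matrices with smooth entries is smooth. -/
theorem accinv_det_contDiff (A : ℝ → Matrix (Fin 3) (Fin 3) ℝ)
    (hA : ∀ i j, ContDiff ℝ ∞ fun t => A t i j) : ContDiff ℝ ∞ fun t => (A t).det := by
  simp only [Matrix.det_apply']
  refine ContDiff.sum fun σ _ => ?_
  refine ContDiff.mul contDiff_const ?_
  exact contDiff_prod fun i _ => hA (σ i) i

/-- The entries of the adjugate of a path of `3 × 3` matrices with smooth entries are smooth. -/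
theorem accinv_adj_contDiff (A : ℝ → Matrix (Fin 3) (Fin 3) ℝ)
    (hA : ∀ i j, ContDiff ℝ ∞ fun t => A t i j) (i j : Fin 3) :
    ContDiff ℝ ∞ fun t => (A t).adjugate i j := by
  simp only [Matrix.adjugate_apply]
  apply accinv_det_contDiff
  intro a b
  by_cases h : a = j
  · subst h
    simp only [Matrix.updateRow_self]
    exact contDiff_const
  · simp only [Matrix.updateRow_ne h]
    exact hA a b

/-- For an invertible real `3 × 3` matrix `K` with nonnegative quadratic form, the segment from
the identity to `K`, run with the smooth time profile `Real.smoothTransition`, consists of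
invertible matrices and has a smooth inverse path. -/
theorem exists_smooth_inverse (K : Matrix (Fin 3) (Fin 3) ℝ) (hK : K.det ≠ 0)
    (hsym : ∀ v : Fin 3 → ℝ, 0 ≤ ∑ j, ∑ k, v j * K j k * v k) :
    ∃ N : ℝ → Matrix (Fin 3) (Fin 3) ℝ,
      (∀ i j, ContDiff ℝ ∞ fun t => N t i j) ∧
      (∀ t, N t * ((1 - Real.smoothTransition t) • (1 : Matrix (Fin 3) (Fin 3) ℝ)
        + Real.smoothTransition t • K) = 1) ∧
      (∀ t, ((1 - Real.smoothTransition t) • (1 : Matrix (Fin 3) (Fin 3) ℝ)
        + Real.smoothTransition t • K) * N t = 1) := by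
  have hdet : ∀ t : ℝ, ((1 - Real.smoothTransition t) • (1 : Matrix (Fin 3) (Fin 3) ℝ)
      + Real.smoothTransition t • K).det ≠ 0 := by
    intro t hzero
    obtain ⟨v, hv0, hv⟩ := Matrix.exists_mulVec_eq_zero_iff.mpr hzero
    have hs0 : 0 ≤ Real.smoothTransition t := Real.smoothTransition.nonneg t
    have hs1 : Real.smoothTransition t ≤ 1 := Real.smoothTransition.le_one t
    have e0 := congrFun hv 0
    have e1 := congrFun hv 1
    have e2 := congrFun hv 2
    simp [Matrix.mulVec, dotProduct, Fin.sum_univ_three, Matrix.one_apply] at e0 e1 e2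
    have hq := hsym v
    simp only [Fin.sum_univ_three] at hq
    have hn : 0 < v 0 ^ 2 + v 1 ^ 2 + v 2 ^ 2 := by
      by_contra hcon
      have h0 : v 0 = 0 := by nlinarith [sq_nonneg (v 0), sq_nonneg (v 1), sq_nonneg (v 2)]
      have h1 : v 1 = 0 := by nlinarith [sq_nonneg (v 0), sq_nonneg (v 1), sq_nonneg (v 2)]
      have h2 : v 2 = 0 := by nlinarith [sq_nonneg (v 0), sq_nonneg (v 1), sq_nonneg (v 2)]
      apply hv0
      funext i
      fin_cases i
      · simpa using h0
      · simpa using h1
      · simpa using h2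
    have key : (1 - Real.smoothTransition t) * (v 0 ^ 2 + v 1 ^ 2 + v 2 ^ 2)
        + Real.smoothTransition t * (v 0 * K 0 0 * v 0 + v 0 * K 0 1 * v 1 + v 0 * K 0 2 * v 2
          + (v 1 * K 1 0 * v 0 + v 1 * K 1 1 * v 1 + v 1 * K 1 2 * v 2)
          + (v 2 * K 2 0 * v 0 + v 2 * K 2 1 * v 1 + v 2 * K 2 2 * v 2)) = 0 := by
      linear_combination v 0 * e0 + v 1 * e1 + v 2 * e2
    have hprod : (1 - Real.smoothTransition t) * (v 0 ^ 2 + v 1 ^ 2 + v 2 ^ 2) = 0 := by
      nlinarith [mul_nonneg hs0 hq, mul_nonneg (sub_nonneg.mpr hs1) hn.le]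
    have hs : Real.smoothTransition t = 1 := by
      rcases mul_eq_zero.mp hprod with h | h
      · linarith
      · exact absurd h hn.ne'
    rw [hs] at hzero
    simp at hzero
    exact hK hzero
  have h1 : ContDiff ℝ ∞ Real.smoothTransition := Real.smoothTransition.contDiff
  have hMs : ∀ i j : Fin 3, ContDiff ℝ ∞ fun t : ℝ =>
      ((1 - Real.smoothTransition t) • (1 : Matrix (Fin 3) (Fin 3) ℝ)
        + Real.smoothTransition t • K) i j := by
    intro i j
    have hfun : (fun t : ℝ => ((1 - Real.smoothTransition t) • (1 : Matrix (Fin 3) (Fin 3) ℝ)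
        + Real.smoothTransition t • K) i j) = fun t : ℝ =>
        (1 - Real.smoothTransition t) * (1 : Matrix (Fin 3) (Fin 3) ℝ) i j
          + Real.smoothTransition t * K i j := by
      funext t
      simp [Matrix.add_apply, Matrix.smul_apply]
    rw [hfun]
    exact ((contDiff_const.sub h1).mul contDiff_const).add (h1.mul contDiff_const)
  refine ⟨fun t => ((1 - Real.smoothTransition t) • (1 : Matrix (Fin 3) (Fin 3) ℝ)
      + Real.smoothTransition t • K)⁻¹, ?_, ?_, ?_⟩
  · intro i j
    have hfun : (fun t : ℝ => ((1 - Real.smoothTransition t) • (1 : Matrix (Fin 3) (Fin 3) ℝ)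
        + Real.smoothTransition t • K)⁻¹ i j) = fun t : ℝ =>
        (((1 - Real.smoothTransition t) • (1 : Matrix (Fin 3) (Fin 3) ℝ)
          + Real.smoothTransition t • K).det)⁻¹
        * ((1 - Real.smoothTransition t) • (1 : Matrix (Fin 3) (Fin 3) ℝ)
          + Real.smoothTransition t • K).adjugate i j := by
      funext t
      rw [Matrix.inv_def, Ring.inverse_eq_inv', Matrix.smul_apply, smul_eq_mul]
    rw [hfun]
    exact ((accinv_det_contDiff _ hMs).inv hdet).mul (accinv_adj_contDiff _ hMs i j)
  · intro t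
    exact Matrix.nonsing_inv_mul _ (isUnit_iff_ne_zero.mpr (hdet t))
  · intro t
    exact Matrix.mul_nonsing_inv _ (isUnit_iff_ne_zero.mpr (hdet t))

end Vale.Agent.H66
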