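import Mathlib
import Vale.Agent.H66.T4Exact
import Vale.Agent.H66.T4Defs

/-!
# Closed two-forms on the four-torus: sums, multiples, exact forms
-/

namespace Vale.Agent.H66

open scoped ContDiff

theorem isClosedTorusForm_extDeriv (α : (Fin 4 → ℝ) → (Fin 4 → ℝ) [⋀^Fin 1]→L[ℝ] ℝ)
    (hα : ContDiff ℝ ∞ α) (hper : Periodic4 α) : IsClosedTorusForm (extDeriv α) := by
  refine ⟨contDiff_extDeriv α hα, ?_, ?_⟩
  · intro j x
    exact extDeriv_periodic α _ (hper j) x
  · exact extDeriv_extDeriv hα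
      (by simp only [minSmoothness_of_isRCLikeNormedField]; exact WithTop.coe_le_coe.2 le_top)

theorem isClosedTorusForm_add (a b : (Fin 4 → ℝ) → (Fin 4 → ℝ) [⋀^Fin 2]→L[ℝ] ℝ)
    (ha : IsClosedTorusForm a) (hb : IsClosedTorusForm b) :
    IsClosedTorusForm (fun x => a x + b x) := by
  refine ⟨ha.1.add hb.1, ?_, ?_⟩
  · intro j x
    simp only
    rw [ha.2.1 j x, hb.2.1 j x]
  · funext x
    have h1 : (fun x => a x + b x) = a + b := rfl
    have hd1 : DifferentiableAt ℝ a x := ha.1.differentiable (by simp) x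
    have hd2 : DifferentiableAt ℝ b x := hb.1.differentiable (by simp) x
    rw [h1, extDeriv_add hd1 hd2, ha.2.2, hb.2.2]
    simp

theorem isClosedTorusForm_smul (c : ℝ) (a : (Fin 4 → ℝ) → (Fin 4 → ℝ) [⋀^Fin 2]→L[ℝ] ℝ)
    (ha : IsClosedTorusForm a) : IsClosedTorusForm (fun x => c • a x) := by
  refine ⟨ha.1.const_smul c, ?_, ?_⟩
  · intro j x
    simp only
    rw [ha.2.1 j x]
  · funext x
    have h1 : (fun x => c • a x) = c • a := rfl
    rw [h1, extDeriv_smul, ha.2.2]
    simp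

end Vale.Agent.H66
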