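import Mathlib
import Vale.Agent.H66.Wedge4
import Vale.Agent.H66.T4Defs

/-!
# Constant linear changes of a triple of two-forms on the four-torus
-/

namespace Vale.Agent.H66

/-- The triple obtained from `w` by the constant matrix `R`: its `i`-th member is
`∑ k, R i k • w k`. -/
noncomputable def rotTriple (R : Matrix (Fin 3) (Fin 3) ℝ)
    (w : Fin 3 → (Fin 4 → ℝ) → (Fin 4 → ℝ) [⋀^Fin 2]→L[ℝ] ℝ) :
    Fin 3 → (Fin 4 → ℝ) → (Fin 4 → ℝ) [⋀^Fin 2]→L[ℝ] ℝ :=
  fun i x => ∑ k, R i k • w k x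

end Vale.Agent.H66
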