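import Mathlib
import Vale.Agent.H66.T4Forms
import Vale.Agent.H66.T4Exact
import Vale.Agent.H66.T4Defs
import Vale.Agent.H66.T4RotDefs

/-!
# Orthogonal changes of the triple preserve the notions of P247

TASK ROT-A.  `rotTriple R w i x = ∑ k, R i k • w k x` (file T4RotDefs).
Closedness, smoothness, periodicity: finite sums and constant multiples (the exterior
derivative is linear on differentiable forms).
Gram matrix: `wedge4 (rotTriple R w i x) (rotTriple R w j x) = ∑ k, ∑ l, R i k * R j l *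
wedge4 (w k x) (w l x)`, so the quadratic form at `v` is the quadratic form of the Gram matrix
of `w` at `R.transpose.mulVec v`, which is nonzero for `v ≠ 0` because `R * R.transpose = 1`.
For a hyperkaehler triple the Gram matrix is `mu x • 1`, so the new Gram matrix is
`mu x • (R * R.transpose) = mu x • 1`.
Cohomologous: the primitive is `fun x => ∑ k, R i k • α k x`.
-/

namespace Vale.Agent.H66

open scoped ContDiff

/-- The exterior derivative of a finite linear combination of smooth forms. -/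
theorem rota_extDeriv_sum {n : ℕ} (c : Fin 3 → ℝ)
    (β : Fin 3 → (Fin 4 → ℝ) → (Fin 4 → ℝ) [⋀^Fin n]→L[ℝ] ℝ)
    (hβ : ∀ k, ContDiff ℝ ∞ (β k)) (x : Fin 4 → ℝ) :
    extDeriv (fun y => ∑ k, c k • β k y) x = ∑ k, c k • extDeriv (β k) x := by
  have hd : ∀ k, DifferentiableAt ℝ (β k) x := fun k => (hβ k).differentiable (by simp) x
  have h0 : HasFDerivAt (fun y => ∑ k, c k • β k y) (∑ k, c k • fderiv ℝ (β k) x) x :=
    HasFDerivAt.fun_sum (fun k _ => ((hd k).hasFDerivAt).const_smul (c k))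
  have h1 : fderiv ℝ (fun y => ∑ k, c k • β k y) x = ∑ k, c k • fderiv ℝ (β k) x := h0.fderiv
  rw [congrFun (extDeriv_eq_clm (fun y => ∑ k, c k • β k y)) x, h1, map_sum]
  apply Finset.sum_congr rfl
  intro k _
  rw [map_smul, congrFun (extDeriv_eq_clm (β k)) x]

/-- A finite linear combination of closed torus forms is a closed torus form. -/
theorem rota_closed (c : Fin 3 → ℝ)
    (w : Fin 3 → (Fin 4 → ℝ) → (Fin 4 → ℝ) [⋀^Fin 2]→L[ℝ] ℝ)
    (hw : ∀ k, IsClosedTorusForm (w k)) :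
    IsClosedTorusForm (fun x => ∑ k, c k • w k x) := by
  refine ⟨?_, ?_, ?_⟩
  · exact ContDiff.sum (fun k _ => ((hw k).1).const_smul (c k))
  · intro j x
    apply Finset.sum_congr rfl
    intro k _
    rw [(hw k).2.1 j x]
  · funext x
    rw [rota_extDeriv_sum c w (fun k => (hw k).1) x]
    apply Finset.sum_eq_zero
    intro k _
    rw [(hw k).2.2]
    simp

/-- The Gram matrix of the rotated triple. -/
theorem rota_gram (R : Matrix (Fin 3) (Fin 3) ℝ)
    (w : Fin 3 → (Fin 4 → ℝ) → (Fin 4 → ℝ) [⋀^Fin 2]→L[ℝ] ℝ) (i j : Fin 3) (x : Fin 4 → ℝ) :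
    wedge4 (rotTriple R w i x) (rotTriple R w j x)
      = ∑ k, ∑ l, R i k * R j l * wedge4 (w k x) (w l x) := by
  unfold rotTriple
  rw [wedge4_sum_left]
  apply Finset.sum_congr rfl
  intro k _
  rw [wedge4_smul_left, wedge4_comm, wedge4_sum_left, Finset.mul_sum]
  apply Finset.sum_congr rfl
  intro l _
  rw [wedge4_smul_left, wedge4_comm]
  ring

/-- The quadratic form of the Gram matrix of a triple of two-forms. -/
theorem rota_gram_quad (ψ : Fin 3 → (Fin 4 → ℝ) [⋀^Fin 2]→L[ℝ] ℝ) (v : Fin 3 → ℝ) :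
    star v ⬝ᵥ (Matrix.mulVec (Matrix.of fun i j => wedge4 (ψ i) (ψ j)) v)
      = wedge4 (∑ i, v i • ψ i) (∑ i, v i • ψ i) := by
  simp only [dotProduct, Matrix.mulVec, Fin.sum_univ_three, Matrix.of_apply, star_trivial,
    Pi.star_apply, wedge4_add_left, wedge4_add_right, wedge4_smul_left, wedge4_smul_right]
  ring

theorem rota_posDef_of_pos (ψ : Fin 3 → (Fin 4 → ℝ) [⋀^Fin 2]→L[ℝ] ℝ)
    (h : ∀ v : Fin 3 → ℝ, v ≠ 0 → 0 < wedge4 (∑ i, v i • ψ i) (∑ i, v i • ψ i)) :
    (Matrix.of fun i j => wedge4 (ψ i) (ψ j)).PosDef := by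
  apply Matrix.PosDef.of_dotProduct_mulVec_pos
  · ext i j
    simp only [Matrix.conjTranspose_apply, Matrix.of_apply, star_trivial]
    exact wedge4_comm _ _
  · intro v hv
    rw [rota_gram_quad]
    exact h v hv

theorem rota_pos_of_posDef (ψ : Fin 3 → (Fin 4 → ℝ) [⋀^Fin 2]→L[ℝ] ℝ)
    (hpd : (Matrix.of fun i j => wedge4 (ψ i) (ψ j)).PosDef) (v : Fin 3 → ℝ) (hv : v ≠ 0) :
    0 < wedge4 (∑ i, v i • ψ i) (∑ i, v i • ψ i) := by
  have h := hpd.dotProduct_mulVec_pos hv
  rwa [rota_gram_quad] at h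

theorem rotTriple_isHypersymplectic (R : Matrix (Fin 3) (Fin 3) ℝ)
    (hR : R * R.transpose = 1)
    (w : Fin 3 → (Fin 4 → ℝ) → (Fin 4 → ℝ) [⋀^Fin 2]→L[ℝ] ℝ)
    (hw : IsHypersymplectic w) : IsHypersymplectic (rotTriple R w) := by
  refine ⟨fun i => rota_closed (R i) w hw.1, fun x => ?_⟩
  apply rota_posDef_of_pos (fun i => rotTriple R w i x)
  intro v hv
  have hsum : ∑ i, v i • rotTriple R w i x = ∑ k, (R.transpose.mulVec v) k • w k x := by
    unfold rotTriple
    simp only [Finset.smul_sum, smul_smul]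
    rw [Finset.sum_comm]
    apply Finset.sum_congr rfl
    intro k _
    rw [← Finset.sum_smul]
    congr 1
    simp only [Matrix.mulVec, dotProduct, Matrix.transpose_apply]
    apply Finset.sum_congr rfl
    intro i _
    ring
  rw [hsum]
  apply rota_pos_of_posDef (fun k => w k x) (hw.2 x)
  intro h0
  apply hv
  have h1 : (R * R.transpose).mulVec v = 0 := by
    rw [← Matrix.mulVec_mulVec, h0, Matrix.mulVec_zero]
  rwa [hR, Matrix.one_mulVec] at h1

theorem rotTriple_isHyperkahler (R : Matrix (Fin 3) (Fin 3) ℝ)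
    (hR : R * R.transpose = 1)
    (w : Fin 3 → (Fin 4 → ℝ) → (Fin 4 → ℝ) [⋀^Fin 2]→L[ℝ] ℝ)
    (hw : IsHyperkahler w) : IsHyperkahler (rotTriple R w) := by
  obtain ⟨hc, mu, hmu, hg⟩ := hw
  refine ⟨fun i => rota_closed (R i) w hc, mu, hmu, fun x i j => ?_⟩
  rw [rota_gram]
  simp only [hg, mul_ite, mul_zero, Finset.sum_ite_eq, Finset.mem_univ, if_true]
  have h1 : (R * R.transpose) i j = ∑ k, R i k * R j k := by
    simp [Matrix.mul_apply, Matrix.transpose_apply]
  rw [← Finset.sum_mul, ← h1, hR, Matrix.one_apply]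
  split_ifs <;> simp

theorem rotTriple_cohomologous (R : Matrix (Fin 3) (Fin 3) ℝ)
    (w θ : Fin 3 → (Fin 4 → ℝ) → (Fin 4 → ℝ) [⋀^Fin 2]→L[ℝ] ℝ)
    (h : ∀ i, Cohomologous (w i) (θ i)) (i : Fin 3) :
    Cohomologous (rotTriple R w i) (rotTriple R θ i) := by
  choose α hα1 hα2 hα3 using h
  refine ⟨fun x => ∑ k, R i k • α k x, ContDiff.sum (fun k _ => (hα1 k).const_smul _), ?_, ?_⟩
  · intro j x
    apply Finset.sum_congr rfl
    intro k _
    rw [hα2 k j x]
  · intro x
    rw [rota_extDeriv_sum (R i) α hα1 x]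
    have h1 : rotTriple R w i x - rotTriple R θ i x = ∑ k, R i k • (w k x - θ k x) := by
      simp only [rotTriple, smul_sub, Finset.sum_sub_distrib]
    rw [h1]
    apply Finset.sum_congr rfl
    intro k _
    rw [hα3]

theorem rotTriple_rotTriple (R S : Matrix (Fin 3) (Fin 3) ℝ)
    (w : Fin 3 → (Fin 4 → ℝ) → (Fin 4 → ℝ) [⋀^Fin 2]→L[ℝ] ℝ) :
    rotTriple S (rotTriple R w) = rotTriple (S * R) w := by
  funext i x
  unfold rotTriple
  simp only [Finset.smul_sum, smul_smul, Matrix.mul_apply, Finset.sum_smul]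
  rw [Finset.sum_comm]

theorem rotTriple_one (w : Fin 3 → (Fin 4 → ℝ) → (Fin 4 → ℝ) [⋀^Fin 2]→L[ℝ] ℝ) :
    rotTriple 1 w = w := by
  funext i x
  unfold rotTriple
  simp only [Matrix.one_apply, ite_smul, one_smul, zero_smul, Finset.sum_ite_eq,
    Finset.mem_univ, if_true]

end Vale.Agent.H66
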