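import Mathlib
import Vale.Agent.H66.T4Acc
import Vale.Agent.H66.T4AccInt
import Vale.Agent.H66.T4AccInv
import Vale.Agent.H66.T4Rot
import Vale.Agent.H66.T4Closed

/-!
# Accretive hypersymplectic triples on the four-torus: the renormalised linear path
-/

namespace Vale.Agent.H66

open Set MeasureTheory
open scoped ContDiff

/-- Accretive triples.  Let `θ` be a hyperkaehler triple on the four-torus, `w` a hypersymplectic
triple with `w i` cohomologous to `θ i`, and `K` a constant invertible matrix such that
the wedge pairing of `∑ v i • w i` with `∑ v i • ∑ k, K i k • θ k` is nonnegative pointwise for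
every `v`.  Then `w` has a cohomologous
deformation to the hyperkaehler triple `θ`. -/
theorem accretive_deformation
    (θ w : Fin 3 → (Fin 4 → ℝ) → (Fin 4 → ℝ) [⋀^Fin 2]→L[ℝ] ℝ)
    (K : Matrix (Fin 3) (Fin 3) ℝ) (hK : K.det ≠ 0)
    (hθ : IsHyperkahler θ) (hw : IsHypersymplectic w)
    (hcoh : ∀ i, Cohomologous (w i) (θ i))
    (hacc : ∀ (x : Fin 4 → ℝ) (v : Fin 3 → ℝ),
      0 ≤ wedge4 (∑ i, v i • w i x) (∑ i, v i • ∑ k, K i k • θ k x)) :
    HasHyperkahlerDeformation w := by
  have hsym := sym_nonneg_of_accretive θ w K hθ hcoh hacc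
  obtain ⟨N, hNs, hNM, -⟩ := exists_smooth_inverse K hK hsym
  obtain ⟨hθc, mu, hmu, hθg⟩ := hθ
  choose α hα1 hα2 hα3 using hcoh
  have hwx : ∀ i x, w i x = θ i x + extDeriv (α i) x := by
    intro i x
    rw [← hα3 i x]
    abel
  have hdα : ∀ i, ContDiff ℝ ∞ (extDeriv (α i)) := fun i => contDiff_extDeriv (α i) (hα1 i)
  -- the family
  have hkey : ∀ t i x, θ i x + ∑ j, ((1 - Real.smoothTransition t) * N t i j) • extDeriv (α j) x
      = ∑ j, N t i j • ((1 - Real.smoothTransition t) • w j x
          + Real.smoothTransition t • ∑ k, K j k • θ k x) := by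
    intro t i x
    have e : ∀ k, N t i 0 * ((1 - Real.smoothTransition t) * (1 : Matrix (Fin 3) (Fin 3) ℝ) 0 k
          + Real.smoothTransition t * K 0 k)
        + N t i 1 * ((1 - Real.smoothTransition t) * (1 : Matrix (Fin 3) (Fin 3) ℝ) 1 k
          + Real.smoothTransition t * K 1 k)
        + N t i 2 * ((1 - Real.smoothTransition t) * (1 : Matrix (Fin 3) (Fin 3) ℝ) 2 k
          + Real.smoothTransition t * K 2 k) = if i = k then 1 else 0 := by
      intro k
      have h := congrFun (congrFun (hNM t) i) k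
      simp only [Matrix.mul_apply, Fin.sum_univ_three, Matrix.add_apply, Matrix.smul_apply,
        smul_eq_mul] at h
      rw [h, Matrix.one_apply]
    have e0 := e 0
    have e1 := e 1
    have e2 := e 2
    simp only [Matrix.one_apply_eq, ne_eq, one_ne_zero, not_false_eq_true,
      Matrix.one_apply_ne, zero_ne_one, Fin.reduceEq, mul_one, mul_zero, zero_add] at e0 e1 e2
    have hδ : θ i x = (if i = 0 then (1 : ℝ) else 0) • θ 0 x
        + (if i = 1 then (1 : ℝ) else 0) • θ 1 x + (if i = 2 then (1 : ℝ) else 0) • θ 2 x := by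
      fin_cases i <;> simp
    simp only [Fin.sum_univ_three, hwx]
    rw [hδ]
    linear_combination (norm := module) (-1 : ℝ) • (e0 • θ 0 x) - e1 • θ 1 x - e2 • θ 2 x
  have hs0 : ∀ t : ℝ, 0 ≤ Real.smoothTransition t := fun t => Real.smoothTransition.nonneg t
  have hs1 : ∀ t : ℝ, Real.smoothTransition t ≤ 1 := fun t => Real.smoothTransition.le_one t
  have hcl : ∀ t i, IsClosedTorusForm
      (fun x => θ i x + ∑ j, ((1 - Real.smoothTransition t) * N t i j) • extDeriv (α j) x) := by
    intro t i
    exact isClosedTorusForm_add (θ i) _ (hθc i)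
      (rota_closed (fun j => (1 - Real.smoothTransition t) * N t i j) (fun j => extDeriv (α j))
        (fun j => isClosedTorusForm_extDeriv (α j) (hα1 j) (hα2 j)))
  have hpd : ∀ t x, (Matrix.of fun i j =>
      wedge4 (θ i x + ∑ k, ((1 - Real.smoothTransition t) * N t i k) • extDeriv (α k) x)
        (θ j x + ∑ k, ((1 - Real.smoothTransition t) * N t j k) • extDeriv (α k) x)).PosDef := by
    intro t x
    simp only [hkey]
    apply posDef_of_mul (fun j => (1 - Real.smoothTransition t) • w j x
      + Real.smoothTransition t • ∑ k, K j k • θ k x) _ (N t) _ (hNM t)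
    exact posDef_segment_of_accretive (fun j => w j x) (fun j => ∑ k, K j k • θ k x)
      (Real.smoothTransition t) (hs0 t) (hs1 t) (hw.2 x)
      (posDef_mix (fun k => θ k x) (mu x) (hmu x) (hθg x) K hK) (hacc x)
  have hN0 : N 0 = 1 := by
    have h := hNM 0
    rw [Real.smoothTransition.zero] at h
    simpa using h
  refine ⟨fun t i x => θ i x + ∑ j, ((1 - Real.smoothTransition t) * N t i j) • extDeriv (α j) x,
    ?_, ?_, ?_, ?_⟩
  · intro i
    apply ((hθc i).1.comp contDiff_snd).add
    apply ContDiff.sum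
    intro j _
    exact ContDiff.smul
      (f := fun p : ℝ × (Fin 4 → ℝ) => (1 - Real.smoothTransition p.1) * N p.1 i j)
      (g := fun p : ℝ × (Fin 4 → ℝ) => extDeriv (α j) p.2)
      ((contDiff_const.sub (Real.smoothTransition.contDiff.comp contDiff_fst)).mul
        ((hNs i j).comp contDiff_fst))
      ((hdα j).comp contDiff_snd)
  · intro t _
    refine ⟨⟨hcl t, hpd t⟩, ?_⟩
    intro i
    refine ⟨fun x => ∑ j, ((1 - Real.smoothTransition t) * N t i j - if i = j then 1 else 0) • α j x,
      ?_, ?_, ?_⟩
    · exact ContDiff.sum (fun j _ => (hα1 j).const_smul _)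
    · intro k x
      apply Finset.sum_congr rfl
      intro j _
      rw [hα2 j k x]
    · intro x
      rw [rota_extDeriv_sum _ α hα1 x, hwx i x]
      have hδ : extDeriv (α i) x = (if i = 0 then (1 : ℝ) else 0) • extDeriv (α 0) x
          + (if i = 1 then (1 : ℝ) else 0) • extDeriv (α 1) x
          + (if i = 2 then (1 : ℝ) else 0) • extDeriv (α 2) x := by
        fin_cases i <;> simp
      simp only [Fin.sum_univ_three]
      rw [hδ]
      module
  · funext i x
    show θ i x + ∑ j, ((1 - Real.smoothTransition 0) * N 0 i j) • extDeriv (α j) x = w i x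
    rw [hN0, Real.smoothTransition.zero, hwx i x]
    simp [Matrix.one_apply]
  · have h1 : (fun (i : Fin 3) (x : Fin 4 → ℝ) =>
        θ i x + ∑ j, ((1 - Real.smoothTransition 1) * N 1 i j) • extDeriv (α j) x) = θ := by
      funext i x
      rw [Real.smoothTransition.one]
      simp
    show IsHyperkahler (fun (i : Fin 3) (x : Fin 4 → ℝ) =>
        θ i x + ∑ j, ((1 - Real.smoothTransition 1) * N 1 i j) • extDeriv (α j) x)
    rw [h1]
    exact ⟨hθc, mu, hmu, hθg⟩

end Vale.Agent.H66
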