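import Mathlib
import Vale.Agent.H66.T4Rot

/-!
# A deformation of the rotated triple gives a deformation of the triple

TASK ROT-B (stub).  Sketch.  From `h` take the family `Ω'` for `rotTriple R w` and put
`Ω t := rotTriple R.transpose (Ω' t)`.  `R.transpose * R = 1` (from `hR`,
`Matrix.mul_eq_one_comm`), so `rotTriple R.transpose (rotTriple R w) = w`
(`rotTriple_rotTriple`, `rotTriple_one`).  Smoothness in the pair t, x: a finite sum of constant
multiples of the smooth maps `fun p => Ω' p.1 k p.2`.  For `t` in `[0,1]`: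
`rotTriple_isHypersymplectic R.transpose` and `rotTriple_cohomologous R.transpose (Ω' t)
(rotTriple R w)`; at `t = 0`: `Ω' 0 = rotTriple R w`; at `t = 1`: `rotTriple_isHyperkahler
R.transpose`.  Use the lemmas of T4Rot as black boxes.
-/

namespace Vale.Agent.H66

open scoped ContDiff

theorem hasDeformation_of_rotTriple (R : Matrix (Fin 3) (Fin 3) ℝ)
    (hR : R * R.transpose = 1)
    (w : Fin 3 → (Fin 4 → ℝ) → (Fin 4 → ℝ) [⋀^Fin 2]→L[ℝ] ℝ)
    (h : HasHyperkahlerDeformation (rotTriple R w)) : HasHyperkahlerDeformation w := by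
  obtain ⟨Ω', hsm, hmid, h0, h1⟩ := h
  have hR' : R.transpose * R = 1 := mul_eq_one_comm.mp hR
  have hRT : R.transpose * R.transpose.transpose = 1 := by
    rw [Matrix.transpose_transpose]
    exact hR'
  have hback : rotTriple R.transpose (rotTriple R w) = w := by
    rw [rotTriple_rotTriple, hR', rotTriple_one]
  refine ⟨fun t => rotTriple R.transpose (Ω' t), ?_, ?_, ?_, ?_⟩
  · intro i
    change ContDiff ℝ ∞ fun p : ℝ × (Fin 4 → ℝ) => ∑ k, R.transpose i k • Ω' p.1 k p.2
    apply ContDiff.sum
    intro k _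
    exact (hsm k).const_smul (R.transpose i k)
  · intro t ht
    obtain ⟨hhs, hcoh⟩ := hmid t ht
    refine ⟨rotTriple_isHypersymplectic R.transpose hRT (Ω' t) hhs, ?_⟩
    intro i
    have hc := rotTriple_cohomologous R.transpose (Ω' t) (rotTriple R w) hcoh i
    rw [hback] at hc
    exact hc
  · change rotTriple R.transpose (Ω' 0) = w
    rw [h0, hback]
  · exact rotTriple_isHyperkahler R.transpose hRT (Ω' 1) h1

end Vale.Agent.H66
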