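import Mathlib
import Vale.Agent.H66.T4Tri
import Vale.Agent.H66.T4TriMain
import Vale.Agent.H66.T4Sign
import Vale.Agent.H66.T4Closed

/-!
# Triangular hypersymplectic triples on the four-torus: any hyperkaehler target
-/

namespace Vale.Agent.H66

open Set MeasureTheory
open scoped ContDiff

/-- Triangular triples, general target.  Let `θ` be a hyperkaehler triple on the four-torus and
let `w` be a hypersymplectic triple with `w i` cohomologous to `θ i` such that `w i ∧ θ j = 0`
pointwise for `i < j`.  Then `w` has a cohomologous deformation to the hyperkaehler triple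
`θ`. -/
theorem triangular_deformation_gen
    (θ w : Fin 3 → (Fin 4 → ℝ) → (Fin 4 → ℝ) [⋀^Fin 2]→L[ℝ] ℝ)
    (hθ : IsHyperkahler θ)
    (hw : IsHypersymplectic w)
    (hcoh : ∀ i, Cohomologous (w i) (θ i))
    (htri : ∀ i j, i < j → ∀ x, wedge4 (w i x) (θ j x) = 0) :
    HasHyperkahlerDeformation w := by
  obtain ⟨hθc, mu, hmu, he⟩ := hθ
  choose α hα1 hα2 hα3 using hcoh
  have hwx : ∀ i x, w i x = θ i x + extDeriv (α i) x := by
    intro i x
    rw [← hα3 i x]
    abel
  have hdα : ∀ i, ContDiff ℝ ∞ (extDeriv (α i)) := fun i => contDiff_extDeriv (α i) (hα1 i)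
  have hee : ∀ k x, 0 < wedge4 (θ k x) (θ k x) := by
    intro k x
    rw [he, if_pos rfl]
    exact hmu x
  -- the sign lemma
  have key : ∀ (ψ : (Fin 4 → ℝ) → Fin 3 → (Fin 4 → ℝ) [⋀^Fin 2]→L[ℝ] ℝ) (k : Fin 3),
      (∀ x, (Matrix.of fun i j => wedge4 (ψ x i) (ψ x j)).PosDef) →
      (∀ x, ψ x k = w k x) →
      (∀ x i, i ≠ k → wedge4 (ψ x i) (θ k x) = 0) →
      ∀ x, 0 < wedge4 (w k x) (θ k x) := by
    intro ψ k hpd hk horth x
    have hne : ∀ y, wedge4 (θ k y) (θ k y) + wedge4 (θ k y) (extDeriv (α k) y) ≠ 0 := by
      intro y
      have h := wedge4_ne_zero_of_posDef (ψ y) (hpd y) (θ k y) (hee k y) k (horth y)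
      rw [hk y, hwx k y, wedge4_add_left, wedge4_comm (extDeriv (α k) y)] at h
      exact h
    have h := pos_of_ne_zero_closed (θ k) (hθc k) (hee k) (α k) (hα1 k) (hα2 k) hne x
    rw [hwx k x, wedge4_add_left, wedge4_comm (extDeriv (α k) x)]
    exact h
  -- stage A: move the last form
  have g2 : ∀ x, 0 < wedge4 (w 2 x) (θ 2 x) :=
    key (fun x i => w i x) 2 hw.2 (fun x => rfl)
      (fun x i hi => htri i 2 (lt_of_le_of_ne (Fin.le_last i) hi) x)
  have hpdA : ∀ s : ℝ, 0 ≤ s → s ≤ 1 → ∀ x,
      (Matrix.of fun i j =>
        wedge4 (Function.update (fun i => w i x) 2 ((1 - s) • θ 2 x + s • w 2 x) i)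
          (Function.update (fun i => w i x) 2 ((1 - s) • θ 2 x + s • w 2 x) j)).PosDef := by
    intro s hs0 hs1 x
    exact posDef_update_segment (fun i => w i x) 2 (θ 2 x) s hs0 hs1 (hee 2 x)
      (fun i hi => htri i 2 (lt_of_le_of_ne (Fin.le_last i) hi) x) (g2 x).le (hw.2 x)
  have hpdA0 : ∀ x, (Matrix.of fun i j =>
      wedge4 (Function.update (fun i => w i x) 2 (θ 2 x) i)
        (Function.update (fun i => w i x) 2 (θ 2 x) j)).PosDef := by
    intro x
    have h := hpdA 0 le_rfl zero_le_one x
    simpa using h
  -- stage B: move the middle form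
  have g1 : ∀ x, 0 < wedge4 (w 1 x) (θ 1 x) := by
    refine key (fun x => Function.update (fun i => w i x) 2 (θ 2 x)) 1 hpdA0 (fun x => ?_) ?_
    · simp [Function.update]
    · intro x i hi
      fin_cases i
      · simpa [Function.update] using htri 0 1 (by decide) x
      · exact absurd rfl hi
      · simpa [Function.update] using he x 2 1
  have hpdB : ∀ s : ℝ, 0 ≤ s → s ≤ 1 → ∀ x,
      (Matrix.of fun i j =>
        wedge4 (Function.update (Function.update (fun i => w i x) 2 (θ 2 x)) 1
            ((1 - s) • θ 1 x + s • w 1 x) i)
          (Function.update (Function.update (fun i => w i x) 2 (θ 2 x)) 1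
            ((1 - s) • θ 1 x + s • w 1 x) j)).PosDef := by
    intro s hs0 hs1 x
    have h := posDef_update_segment (Function.update (fun i => w i x) 2 (θ 2 x)) 1 (θ 1 x) s
      hs0 hs1 (hee 1 x) ?_ ?_ (hpdA0 x)
    · simpa [Function.update] using h
    · intro i hi
      fin_cases i
      · simpa [Function.update] using htri 0 1 (by decide) x
      · exact absurd rfl hi
      · simpa [Function.update] using he x 2 1
    · simpa [Function.update] using (g1 x).le
  have hpdB0 : ∀ x, (Matrix.of fun i j =>
      wedge4 (Function.update (Function.update (fun i => w i x) 2 (θ 2 x)) 1 (θ 1 x) i)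
        (Function.update (Function.update (fun i => w i x) 2 (θ 2 x)) 1 (θ 1 x) j)).PosDef := by
    intro x
    have h := hpdB 0 le_rfl zero_le_one x
    simpa using h
  -- stage C: move the first form
  have g0 : ∀ x, 0 < wedge4 (w 0 x) (θ 0 x) := by
    refine key (fun x => Function.update (Function.update (fun i => w i x) 2 (θ 2 x)) 1 (θ 1 x))
      0 hpdB0 (fun x => ?_) ?_
    · simp [Function.update]
    · intro x i hi
      fin_cases i
      · exact absurd rfl hi
      · simpa [Function.update] using he x 1 0
      · simpa [Function.update] using he x 2 0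
  have hpdC : ∀ s : ℝ, 0 ≤ s → s ≤ 1 → ∀ x,
      (Matrix.of fun i j =>
        wedge4 (Function.update (Function.update (Function.update (fun i => w i x) 2 (θ 2 x)) 1
            (θ 1 x)) 0 ((1 - s) • θ 0 x + s • w 0 x) i)
          (Function.update (Function.update (Function.update (fun i => w i x) 2 (θ 2 x)) 1
            (θ 1 x)) 0 ((1 - s) • θ 0 x + s • w 0 x) j)).PosDef := by
    intro s hs0 hs1 x
    have h := posDef_update_segment
      (Function.update (Function.update (fun i => w i x) 2 (θ 2 x)) 1 (θ 1 x)) 0 (θ 0 x) s
      hs0 hs1 (hee 0 x) ?_ ?_ (hpdB0 x)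
    · simpa [Function.update] using h
    · intro i hi
      fin_cases i
      · exact absurd rfl hi
      · simpa [Function.update] using he x 1 0
      · simpa [Function.update] using he x 2 0
    · simpa [Function.update] using (g0 x).le
  -- the path
  have hcl : ∀ t i,
      IsClosedTorusForm (fun x => θ i x + stageProfile i t • extDeriv (α i) x) := by
    intro t i
    exact isClosedTorusForm_add (θ i) _ (hθc i)
      (isClosedTorusForm_smul _ _ (isClosedTorusForm_extDeriv (α i) (hα1 i) (hα2 i)))
  refine ⟨fun t i x => θ i x + stageProfile i t • extDeriv (α i) x, ?_, ?_, ?_, ?_⟩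
  · intro i
    apply ((hθc i).1.comp contDiff_snd).add
    exact ContDiff.smul (f := fun p : ℝ × (Fin 4 → ℝ) => stageProfile i p.1)
      (g := fun p : ℝ × (Fin 4 → ℝ) => extDeriv (α i) p.2)
      (stageProfile_contDiff i) ((hdα i).comp contDiff_snd)
  · intro t ht
    obtain ⟨ht0, ht1⟩ := ht
    refine ⟨⟨hcl t, ?_⟩, ?_⟩
    · intro x
      have hs0 : ∀ i, 0 ≤ stageProfile i t := fun i => stageProfile_nonneg i t
      have hs1 : ∀ i, stageProfile i t ≤ 1 := fun i => stageProfile_le_one i t
      rcases le_total t (1 / 3) with h13 | h13
      · -- first third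
        have p0 : stageProfile 0 t = 1 := stageProfile_eq_one 0 t (by norm_num; linarith)
        have p1 : stageProfile 1 t = 1 := stageProfile_eq_one 1 t (by norm_num; linarith)
        have hΩ : (fun i => θ i x + stageProfile i t • extDeriv (α i) x)
            = Function.update (fun i => w i x) 2
                ((1 - stageProfile 2 t) • θ 2 x + stageProfile 2 t • w 2 x) := by
          funext i
          fin_cases i
          · simp [Function.update, hwx, p0]
          · simp [Function.update, hwx, p1]
          · simp only [Function.update, hwx]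
            simp
            module
        have h := hpdA (stageProfile 2 t) (hs0 2) (hs1 2) x
        rw [← hΩ] at h
        exact h
      · rcases le_total t (2 / 3) with h23 | h23
        · -- second third
          have p0 : stageProfile 0 t = 1 := stageProfile_eq_one 0 t (by norm_num; linarith)
          have q2 : stageProfile 2 t = 0 := stageProfile_eq_zero 2 t (by norm_num; linarith)
          have hΩ : (fun i => θ i x + stageProfile i t • extDeriv (α i) x)
              = Function.update (Function.update (fun i => w i x) 2 (θ 2 x)) 1
                  ((1 - stageProfile 1 t) • θ 1 x + stageProfile 1 t • w 1 x) := by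
            funext i
            fin_cases i
            · simp [Function.update, hwx, p0]
            · simp only [Function.update, hwx]
              simp
              module
            · simp [Function.update, q2]
          have h := hpdB (stageProfile 1 t) (hs0 1) (hs1 1) x
          rw [← hΩ] at h
          exact h
        · -- last third
          have q1 : stageProfile 1 t = 0 := stageProfile_eq_zero 1 t (by norm_num; linarith)
          have q2 : stageProfile 2 t = 0 := stageProfile_eq_zero 2 t (by norm_num; linarith)
          have hΩ : (fun i => θ i x + stageProfile i t • extDeriv (α i) x)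
              = Function.update (Function.update (Function.update (fun i => w i x) 2 (θ 2 x)) 1
                  (θ 1 x)) 0 ((1 - stageProfile 0 t) • θ 0 x + stageProfile 0 t • w 0 x) := by
            funext i
            fin_cases i
            · simp only [Function.update, hwx]
              simp
              module
            · simp [Function.update, q1]
            · simp [Function.update, q2]
          have h := hpdC (stageProfile 0 t) (hs0 0) (hs1 0) x
          rw [← hΩ] at h
          exact h
    · intro i
      refine ⟨fun x => (stageProfile i t - 1) • α i x, ?_, ?_, ?_⟩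
      · exact (hα1 i).const_smul _
      · intro j x
        simp only
        rw [hα2 i j x]
      · intro x
        have h2 : (fun x => (stageProfile i t - 1) • α i x) = (stageProfile i t - 1) • α i := rfl
        rw [h2, extDeriv_smul, hwx i x]
        module
  · funext i x
    have h : stageProfile i 0 = 1 := by
      apply stageProfile_eq_one
      have : ((i : ℕ) : ℝ) ≤ 2 := by exact_mod_cast i.is_le
      linarith
    show θ i x + stageProfile i 0 • extDeriv (α i) x = w i x
    rw [h, one_smul, hwx i x]
  · have h : ∀ k : Fin 3, stageProfile k 1 = 0 := by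
      intro k
      apply stageProfile_eq_zero
      have : (0 : ℝ) ≤ ((k : ℕ) : ℝ) := Nat.cast_nonneg _
      linarith
    have h1 : (fun (i : Fin 3) (x : Fin 4 → ℝ) =>
        θ i x + stageProfile i 1 • extDeriv (α i) x) = θ := by
      funext i x
      rw [h i]
      simp
    show IsHyperkahler (fun (i : Fin 3) (x : Fin 4 → ℝ) =>
        θ i x + stageProfile i 1 • extDeriv (α i) x)
    rw [h1]
    exact ⟨hθc, mu, hmu, he⟩

end Vale.Agent.H66
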